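import Mathlib

/-! Common definitions for the disproof of the periodic tiling conjecture in dimension three. -/

namespace Vale.Agent.P043.Z3

/-- The plane lattice. -/
abbrev Pl := ℤ × ℤ

/-- `A` and the family `f` tile the group: every point is `a + f k` in exactly one way. -/
def FamTiles {H ι : Type*} [AddCommGroup H] (A : Set H) (f : ι → H) : Prop :=
  ∀ g, ∃! p : A × ι, (p.1 : H) + f p.2 = g

/-- The family of a subgroup placed over the origin of the plane. -/
def colFam {G : Type*} [AddCommGroup G] (C : AddSubgroup G) : C → Pl × G := fun z => (0, (z : G))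

/-- Invariance under the two plane translations of length `P`. -/
def PlPeriodic {G : Type*} [AddCommGroup G] (A : Set (Pl × G)) (P : ℕ) : Prop :=
  ∀ a, (a + (((P : ℤ), 0), 0) ∈ A ↔ a ∈ A) ∧ (a + ((0, (P : ℤ)), 0) ∈ A ↔ a ∈ A)

/-- A finite tile of `ℤ^d` that tiles, no tiling being periodic. -/
def Counterexample (d : ℕ) : Prop :=
  ∃ F : Finset (Fin d → ℤ), F.Nonempty ∧
    (∃ A : Set (Fin d → ℤ), ∀ g, ∃! p : (Fin d → ℤ) × (Fin d → ℤ),
      p.1 ∈ A ∧ p.2 ∈ F ∧ p.1 + p.2 = g) ∧
    ∀ A : Set (Fin d → ℤ),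
      (∀ g, ∃! p : (Fin d → ℤ) × (Fin d → ℤ), p.1 ∈ A ∧ p.2 ∈ F ∧ p.1 + p.2 = g) →
      ∀ H : AddSubgroup (Fin d → ℤ), H.FiniteIndex → ¬ ∀ h ∈ H, ∀ a, a + h ∈ A ↔ a ∈ A

variable {G T : Type} [AddCommGroup G] [AddCommGroup T]

/-- A tiling equation relative to the projection `π`: the pieces `(v k, c k + z)`,
`z` in `K ⊓ ker π`. -/
structure Eqn (π : G →+ T) : Type 1 where
  /-- index of the pieces -/
  ι : Type
  fin : Fintype ι
  /-- plane offsets -/
  v : ι → Pl
  /-- group offsets -/
  c : ι → G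
  /-- the subgroup of invisible offsets -/
  K : AddSubgroup G

/-- A choice of one point in every fibre of `π` over every plane point. -/
def IsSection (π : G →+ T) (α : Pl → T → G) : Prop := ∀ n t, π (α n t) = t

/-- The equation holds for the section `α`. -/
def Eqn.Holds {π : G →+ T} (E : Eqn π) (α : Pl → T → G) : Prop :=
  ∀ n g, ∃! k, g - α (n - E.v k) (π g - π (E.c k)) - E.c k ∈ E.K

/-- The family of pieces of an equation. -/
def Eqn.fam {π : G →+ T} (E : Eqn π) : E.ι × (E.K ⊓ π.ker : AddSubgroup G) → Pl × G :=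
  fun p => (E.v p.1, E.c p.1 + (p.2 : G))

/-- The graph of a section. -/
def graphSet (α : Pl → T → G) : Set (Pl × G) := {a | ∃ t, α a.1 t = a.2}

end Vale.Agent.P043.Z3
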