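import Mathlib

/-! Registers: a low digit that follows the line coordinate and a high digit holding a label. -/

namespace Vale.Agent.P043.Z3

/-- The register of a cell with line coordinate `j`, coordinate `t` and label `e`. -/
def digit {h : ℕ} (j : ℤ) (t e : ZMod h) : ZMod (h ^ 2) :=
  ((j + ((t - (j : ZMod h)).val : ℤ) + (h : ℤ) * (e.val : ℤ) : ℤ) : ZMod (h ^ 2))

variable {h : ℕ} [NeZero h]

theorem digit_cast (j : ℤ) (t e : ZMod h) :
    ZMod.castHom (dvd_pow_self h two_ne_zero) (ZMod h) (digit j t e) = t := by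
  rw [digit, map_intCast]
  simp

omit [NeZero h] in
theorem digit_step (j m : ℤ) (t e : ZMod h) :
    digit (j - m) (t - (m : ZMod h)) e + (m : ZMod (h ^ 2)) = digit j t e := by
  rw [digit, digit]
  push_cast
  rw [sub_sub_sub_cancel_right]
  ring

theorem digit_injective (j : ℤ) (t : ZMod h) : Function.Injective (digit j t) := by
  intro e e' he
  have h1 : ((h * e.val : ℕ) : ZMod (h ^ 2)) = ((h * e'.val : ℕ) : ZMod (h ^ 2)) := by
    rw [digit, digit] at he
    push_cast at he ⊢
    exact add_left_cancel he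
  have hlt : ∀ a : ZMod h, h * a.val < h ^ 2 := fun a => by
    rw [sq]; exact Nat.mul_lt_mul_of_pos_left a.val_lt (NeZero.pos h)
  have h2 := congrArg ZMod.val h1
  rw [ZMod.val_natCast_of_lt (hlt e), ZMod.val_natCast_of_lt (hlt e')] at h2
  exact ZMod.val_injective h (Nat.eq_of_mul_eq_mul_left (NeZero.pos h) h2)

theorem digit_surjective (j : ℤ) {r : ZMod (h ^ 2)} {t : ZMod h}
    (hr : ZMod.castHom (dvd_pow_self h two_ne_zero) (ZMod h) r = t) : ∃ e, digit j t e = r := by
  set b : ℤ := j + ((t - (j : ZMod h)).val : ℤ) with hb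
  set u : ZMod (h ^ 2) := r - (b : ZMod (h ^ 2)) with hu
  have hu0 : ZMod.castHom (dvd_pow_self h two_ne_zero) (ZMod h) u = 0 := by
    rw [hu, map_sub, hr, map_intCast, hb]
    simp
  obtain ⟨k, hk⟩ : h ∣ u.val := by
    refine (ZMod.natCast_eq_zero_iff _ _).1 ?_
    rw [← map_natCast (ZMod.castHom (dvd_pow_self h two_ne_zero) (ZMod h)), ZMod.natCast_zmod_val]
    exact hu0
  have hkh : k < h := by
    have := u.val_lt
    rw [hk, sq] at this
    exact Nat.lt_of_mul_lt_mul_left this
  refine ⟨(k : ZMod h), ?_⟩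
  rw [digit, ZMod.val_natCast_of_lt hkh, Int.cast_add, Int.cast_mul, Int.cast_natCast,
    Int.cast_natCast, ← Nat.cast_mul, ← hk, ZMod.natCast_zmod_val, hu, hb]
  abel

/-- Two base-thirteen digits. -/
def two13 (p : ZMod 13 × ZMod 13) : ZMod 169 := ((p.1.val + 13 * p.2.val : ℕ) : ZMod 169)

theorem two13_fst (p : ZMod 13 × ZMod 13) :
    ZMod.castHom (show 13 ∣ 169 by norm_num) (ZMod 13) (two13 p) = p.1 := by
  rw [two13, map_natCast]
  push_cast
  rw [ZMod.natCast_zmod_val, show (13 : ZMod 13) = 0 by decide]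
  ring

theorem two13_injective : Function.Injective two13 := by
  intro p p' hp
  have h2 := congrArg ZMod.val hp
  have := p.1.val_lt; have := p.2.val_lt; have := p'.1.val_lt; have := p'.2.val_lt
  rw [two13, two13, ZMod.val_natCast_of_lt (by omega), ZMod.val_natCast_of_lt (by omega)] at h2
  exact Prod.ext (ZMod.val_injective 13 (by omega)) (ZMod.val_injective 13 (by omega))

theorem two13_surjective (r : ZMod 169) : ∃ p, two13 p = r := by
  have hcard : Fintype.card (ZMod 13 × ZMod 13) = Fintype.card (ZMod 169) := by simp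
  exact ((Fintype.bijective_iff_injective_and_card two13).2 ⟨two13_injective, hcard⟩).2 r

end Vale.Agent.P043.Z3
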