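import Vale.Agent.P043.Z3.Window

/-! Decomposable patterns. -/

namespace Vale.Agent.P043.Z3

/-- A map on an arbitrary type whose domain splits into cycles along which the value climbs in the
first or in the second coordinate. -/
def Splits {E : Type*} {P Q : ℕ} (ψ : E → ZMod P × ZMod Q) : Prop :=
  ∃ (τ : Equiv.Perm E) (kind : E → Bool), ∀ k, kind (τ k) = kind k ∧
    τ^[if kind k then Q else P] k = k ∧ ψ (τ k) = ψ k + (if kind k then (0, 1) else (1, 0))

theorem Splits.decomp {P Q h : ℕ} {ψ : ZMod h → ZMod P × ZMod Q} (hψ : Splits ψ) :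
    Nonempty (Decomp ψ) := by
  obtain ⟨τ, kind, hk⟩ := hψ
  exact ⟨⟨τ, kind, fun k => (hk k).1, fun k => by rw [Equiv.Perm.coe_pow]; exact (hk k).2.1,
    fun k => (hk k).2.2⟩⟩

theorem Splits.ofDecomp {P Q h : ℕ} {ψ : ZMod h → ZMod P × ZMod Q} (dec : Decomp ψ) : Splits ψ :=
  ⟨dec.τ, dec.kind, fun k => ⟨dec.kind_τ k, by rw [← Equiv.Perm.coe_pow]; exact dec.cycle k,
    dec.step k⟩⟩

theorem Splits.equiv {E E' : Type*} {P Q : ℕ} (e : E ≃ E') {ψ : E → ZMod P × ZMod Q}
    {ψ' : E' → ZMod P × ZMod Q} (he : ∀ x, ψ' (e x) = ψ x) (hψ : Splits ψ) : Splits ψ' := by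
  obtain ⟨τ, kind, hk⟩ := hψ
  refine ⟨e.permCongr τ, kind ∘ e.symm, fun k => ?_⟩
  obtain ⟨x, rfl⟩ := e.surjective k
  have hsc : Function.Semiconj e τ (e.permCongr τ) := fun y => by simp
  refine ⟨by simpa using (hk x).1, ?_, ?_⟩
  · rw [Function.comp_apply, e.symm_apply_apply, ← (hsc.iterate_right _).eq, (hk x).2.1]
  · rw [← hsc.eq, he, he, Function.comp_apply, e.symm_apply_apply]
    exact (hk x).2.2

theorem Splits.prod {E : Type*} (Y : Type*) {P Q : ℕ} {ψ : E → ZMod P × ZMod Q}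
    (hψ : Splits ψ) : Splits fun p : E × Y => ψ p.1 := by
  obtain ⟨τ, kind, hk⟩ := hψ
  refine ⟨τ.prodCongr (Equiv.refl Y), fun p => kind p.1,
    fun p => ⟨(hk p.1).1, ?_, (hk p.1).2.2⟩⟩
  have hsc : Function.Semiconj (fun x => (x, p.2)) τ (τ.prodCongr (Equiv.refl Y)) := fun _ => rfl
  exact ((hsc.iterate_right _).eq p.1).symm.trans (by rw [(hk p.1).2.1])

theorem Splits.sum {E E' : Type*} {P Q : ℕ} {ψ : E → ZMod P × ZMod Q}
    {ψ' : E' → ZMod P × ZMod Q} (hψ : Splits ψ) (hψ' : Splits ψ') : Splits (Sum.elim ψ ψ') := by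
  obtain ⟨τ, kind, hk⟩ := hψ
  obtain ⟨τ', kind', hk'⟩ := hψ'
  refine ⟨τ.sumCongr τ', Sum.elim kind kind', ?_⟩
  rintro (x | x)
  · have hsc : Function.Semiconj Sum.inl τ (τ.sumCongr τ') := fun _ => rfl
    exact ⟨(hk x).1, ((hsc.iterate_right _).eq x).symm.trans (by rw [Sum.elim_inl, (hk x).2.1]),
      (hk x).2.2⟩
  · have hsc : Function.Semiconj Sum.inr τ' (τ.sumCongr τ') := fun _ => rfl
    exact ⟨(hk' x).1, ((hsc.iterate_right _).eq x).symm.trans (by rw [Sum.elim_inr, (hk' x).2.1]),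
      (hk' x).2.2⟩

theorem splits_row (P Q : ℕ) : Splits fun x : ZMod P => (x, (0 : ZMod Q)) :=
  ⟨Equiv.addRight 1, fun _ => false, fun k => ⟨rfl, by simp, by simp⟩⟩

theorem splits_col (P Q : ℕ) : Splits fun x : ZMod Q => ((0 : ZMod P), x) :=
  ⟨Equiv.addRight 1, fun _ => true, fun k => ⟨rfl, by simp, by simp⟩⟩

/-- Large numbers are combinations of two coprime periods. -/
theorem exists_two_periods (P Q l : ℕ) [NeZero Q] (hPQ : Nat.Coprime P Q) (hl : P * Q < l) :
    ∃ a b, a * P + b * Q = l := by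
  set x : ZMod Q := (l : ZMod Q) * (P : ZMod Q)⁻¹
  have hx : ((x.val * P : ℕ) : ZMod Q) = l := by
    rw [Nat.cast_mul, ZMod.natCast_zmod_val, mul_assoc, mul_comm _ (P : ZMod Q),
      ZMod.coe_mul_inv_eq_one P hPQ, mul_one]
  have hle : x.val * P ≤ l := by
    have := Nat.mul_le_mul_right P x.val_lt.le
    rw [Nat.mul_comm Q P] at this
    omega
  obtain ⟨b, hb⟩ := (Nat.modEq_iff_dvd' hle).1 ((ZMod.natCast_eq_natCast_iff _ _ _).1 hx)
  exact ⟨x.val, b, by rw [Nat.mul_comm b Q]; omega⟩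

theorem exists_pattern (P Q l : ℕ) [NeZero P] [NeZero Q] [NeZero l] (hPQ : Nat.Coprime P Q)
    (hl : P * Q < l) : ∃ ψ : ZMod l → ZMod P × ZMod Q, Nonempty (Decomp ψ) := by
  obtain ⟨a, b, hab⟩ := exists_two_periods P Q l hPQ hl
  have hs := ((splits_row P Q).prod (Fin a)).sum ((splits_col P Q).prod (Fin b))
  let e : (ZMod P × Fin a) ⊕ (ZMod Q × Fin b) ≃ ZMod l := Fintype.equivOfCardEq (by
    simp [Fintype.card_sum, ZMod.card, mul_comm, ← hab])
  exact ⟨fun k => Sum.elim (fun p : ZMod P × Fin a => (p.1, (0 : ZMod Q)))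
    (fun p : ZMod Q × Fin b => ((0 : ZMod P), p.1)) (e.symm k),
    (Splits.equiv e (fun x => by rw [e.symm_apply_apply]) hs).decomp⟩

theorem decomp_lift {P Q l h : ℕ} [NeZero h] (hdvd : l ∣ h) (hco : Nat.Coprime l (h / l))
    {ψ : ZMod l → ZMod P × ZMod Q} (dec : Decomp ψ) :
    Nonempty (Decomp fun k : ZMod h => ψ (ZMod.castHom hdvd (ZMod l) k)) := by
  obtain ⟨m, rfl⟩ := id hdvd
  have hl : 0 < l := Nat.pos_of_ne_zero fun h0 => NeZero.ne (l * m) (by rw [h0, Nat.zero_mul])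
  rw [Nat.mul_div_cancel_left m hl] at hco
  refine (((Splits.ofDecomp dec).prod (ZMod m)).equiv
    (ZMod.chineseRemainder hco).symm.toEquiv fun x => ?_).decomp
  have h1 : ∀ z : ZMod (l * m),
      ZMod.castHom hdvd (ZMod l) z = (ZMod.chineseRemainder hco z).1 := fun z =>
    RingHom.congr_fun (Subsingleton.elim (ZMod.castHom hdvd (ZMod l))
      ((RingHom.fst _ _).comp (ZMod.chineseRemainder hco).toRingHom)) z
  simp [h1]

theorem exists_exceptional_pattern {P Q l : ℕ} [NeZero l] (hP : P = 2 ∨ P = 3)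
    (hco : Nat.Coprime 13 l) (y0 : ZMod 13) {ψ : ZMod l → ZMod P × ZMod Q} (dec : Decomp ψ) :
    ∃ c : ZMod 13 → ZMod P × ZMod Q, Nonempty (Decomp fun k : ZMod (13 * l) =>
      if ZMod.castHom (dvd_mul_right 13 l) (ZMod 13) k = y0 then
        ψ (ZMod.castHom (dvd_mul_left l 13) (ZMod l) k)
      else c (ZMod.castHom (dvd_mul_right 13 l) (ZMod 13) k)) := by
  classical
  have : NeZero P := ⟨by rcases hP with rfl | rfl <;> norm_num⟩
  have hcard : P * (12 / P) = 12 := by rcases hP with rfl | rfl <;> norm_num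
  -- the twelve other residues form cycles of length `P`
  let e0 : Option (ZMod P × Fin (12 / P)) ≃ ZMod 13 := Fintype.equivOfCardEq (by
    simp [Fintype.card_option, ZMod.card, hcard])
  let e : Option (ZMod P × Fin (12 / P)) ≃ ZMod 13 := e0.trans (Equiv.swap (e0 none) y0)
  have he : e none = y0 := by simp [e]
  have hne : ∀ z, e (some z) ≠ y0 := fun z h0 => by
    have := e.injective (h0.trans he.symm)
    simp at this
  refine ⟨fun y => (e.symm y).elim 0 fun z => (z.1, 0), ?_⟩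
  have hs := (Splits.ofDecomp dec).sum
    (((splits_row P Q).prod (Fin (12 / P))).prod (ZMod l))
  let E : ZMod l ⊕ ((ZMod P × Fin (12 / P)) × ZMod l) ≃ ZMod (13 * l) :=
    Equiv.trans
      { toFun := Sum.elim (fun x => (e none, x)) (fun z => (e (some z.1), z.2))
        invFun := fun w => (e.symm w.1).elim (Sum.inl w.2) fun z => Sum.inr (z, w.2)
        left_inv := by rintro (x | ⟨z, x⟩) <;> simp
        right_inv := by
          rintro ⟨y, x⟩
          obtain ⟨o, rfl⟩ := e.surjective y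
          cases o <;> simp }
      (ZMod.chineseRemainder hco).symm.toEquiv
  refine (hs.equiv E fun x => ?_).decomp
  have h1 : ∀ z : ZMod (13 * l),
      ZMod.castHom (dvd_mul_right 13 l) (ZMod 13) z = (ZMod.chineseRemainder hco z).1 := fun z =>
    RingHom.congr_fun (Subsingleton.elim (ZMod.castHom (dvd_mul_right 13 l) (ZMod 13))
      ((RingHom.fst _ _).comp (ZMod.chineseRemainder hco).toRingHom)) z
  have h2 : ∀ z : ZMod (13 * l),
      ZMod.castHom (dvd_mul_left l 13) (ZMod l) z = (ZMod.chineseRemainder hco z).2 := fun z =>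
    RingHom.congr_fun (Subsingleton.elim (ZMod.castHom (dvd_mul_left l 13) (ZMod l))
      ((RingHom.snd _ _).comp (ZMod.chineseRemainder hco).toRingHom)) z
  simp only [h1, h2]
  rcases x with x | ⟨z, x⟩
  · simp [E, he]
  · simp [E, hne z]

end Vale.Agent.P043.Z3
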