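import Vale.Agent.P043.Z3.Basic

/-! Sections and tilings by the column family. -/

namespace Vale.Agent.P043.Z3

theorem famTiles_iff {H ι : Type*} [AddCommGroup H] {A : Set H} {f : ι → H} :
    FamTiles A f ↔ ∀ g, ∃! k, g - f k ∈ A := by
  refine forall_congr' fun g => ⟨?_, ?_⟩
  · rintro ⟨⟨⟨a, ha⟩, k⟩, hk, hu⟩
    dsimp only at hk
    refine ⟨k, ?_, fun j hj => congrArg Prod.snd (hu ⟨⟨g - f j, hj⟩, j⟩ (sub_add_cancel _ _))⟩
    show g - f k ∈ A
    rwa [← eq_sub_of_add_eq hk]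
  · rintro ⟨k, hk, hu⟩
    refine ⟨⟨⟨g - f k, hk⟩, k⟩, sub_add_cancel _ _, ?_⟩
    rintro ⟨⟨a, ha⟩, j⟩ hj
    dsimp only at hj
    obtain rfl : a = g - f j := eq_sub_of_add_eq hj
    obtain rfl := hu j ha
    rfl

variable {G T : Type} [AddCommGroup G] [AddCommGroup T] {π : G →+ T}

theorem mem_graphSet {α : Pl → T → G} (hα : IsSection π α) {n : Pl} {g : G} :
    (n, g) ∈ graphSet α ↔ α n (π g) = g := by
  refine ⟨fun ⟨t, ht⟩ => ?_, fun h => ⟨π g, h⟩⟩
  dsimp only at ht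
  rw [← ht, hα]

theorem graphSet_col {α : Pl → T → G} (hα : IsSection π α) :
    FamTiles (graphSet α) (colFam π.ker) := by
  rw [famTiles_iff]
  rintro ⟨n, g⟩
  refine ⟨⟨g - α n (π g), by rw [AddMonoidHom.mem_ker, map_sub, hα, sub_self]⟩, ?_, ?_⟩
  · simp [colFam, mem_graphSet hα, hα n (π g)]
  · rintro ⟨z, hz⟩ h
    rw [AddMonoidHom.mem_ker] at hz
    simp only [colFam, Prod.mk_sub_mk, sub_zero, mem_graphSet hα, map_sub, hz] at h
    exact Subtype.ext (show z = g - α n (π g) by rw [h]; abel)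

theorem graphSet_eqn_iff {α : Pl → T → G} (hα : IsSection π α) (E : Eqn π) :
    FamTiles (graphSet α) E.fam ↔ E.Holds α := by
  rw [famTiles_iff, Eqn.Holds, Prod.forall]
  have key : ∀ n g k (z : (E.K ⊓ π.ker : AddSubgroup G)), (n, g) - E.fam (k, z) ∈ graphSet α ↔
      (z : G) = g - α (n - E.v k) (π g - π (E.c k)) - E.c k := by
    intro n g k z
    have hz : π (z : G) = 0 := (AddSubgroup.mem_inf.1 z.2).2
    simp only [Eqn.fam, Prod.mk_sub_mk, mem_graphSet hα, map_sub, map_add, hz, add_zero]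
    constructor <;> intro h <;> rw [h] <;> abel
  refine forall₂_congr fun n g => ⟨?_, ?_⟩
  · rintro ⟨⟨k, z⟩, hk, hu⟩
    rw [key] at hk
    refine ⟨k, ?_, fun j hj => ?_⟩
    · show _ ∈ E.K
      rw [← hk]
      exact (AddSubgroup.mem_inf.1 z.2).1
    · have hker : π (g - α (n - E.v j) (π g - π (E.c j)) - E.c j) = 0 := by
        rw [map_sub, map_sub, hα]
        abel
      exact congrArg Prod.fst
        (hu (j, ⟨_, AddSubgroup.mem_inf.2 ⟨hj, hker⟩⟩) ((key _ _ _ _).2 rfl))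
  · rintro ⟨k, hk, hu⟩
    have hker : π (g - α (n - E.v k) (π g - π (E.c k)) - E.c k) = 0 := by
      rw [map_sub, map_sub, hα]
      abel
    refine ⟨(k, ⟨_, AddSubgroup.mem_inf.2 ⟨hk, hker⟩⟩), (key _ _ _ _).2 rfl, ?_⟩
    rintro ⟨j, z⟩ h
    rw [key] at h
    obtain rfl := hu j (by
      show _ ∈ E.K
      rw [← h]
      exact (AddSubgroup.mem_inf.1 z.2).1)
    exact Prod.ext rfl (Subtype.ext h)

theorem exists_section (hπ : Function.Surjective π) {A : Set (Pl × G)}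
    (hA : FamTiles A (colFam π.ker)) : ∃ α, IsSection π α ∧ A = graphSet α := by
  rw [famTiles_iff] at hA
  choose g0 hg0 using hπ
  choose z hz hu using fun n t => hA (n, g0 t)
  simp only [colFam, Prod.mk_sub_mk, sub_zero] at hz hu
  have hα : IsSection π fun n t => g0 t - (z n t : G) := fun n t => by
    simp [hg0, (AddMonoidHom.mem_ker).1 (z n t).2]
  refine ⟨_, hα, Set.ext ?_⟩
  rintro ⟨n, g⟩
  rw [mem_graphSet hα]
  refine ⟨fun hg => ?_, fun hg => by rw [← hg]; exact hz n (π g)⟩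
  have hmem : g0 (π g) - g ∈ π.ker := by simp [hg0]
  have := congrArg Subtype.val (hu n (π g) ⟨_, hmem⟩ (by simpa using hg))
  dsimp only at this
  rw [← this]
  abel

theorem section_periodic {α : Pl → T → G} (hα : IsSection π α) {w : Pl}
    (h : ∀ a, a + (w, 0) ∈ graphSet α ↔ a ∈ graphSet α) :
    ∀ n t, α (n + w) t = α n t := by
  intro n t
  have := (h (n, α n t)).2 ⟨t, rfl⟩
  rw [Prod.mk_add_mk, add_zero, mem_graphSet hα, hα] at this
  exact this

end Vale.Agent.P043.Z3
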