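import Vale.Agent.P043.Z3.Window

/-! The window equation holds for a canonical section. -/

namespace Vale.Agent.P043.Z3

open Finset

variable {G T R D : Type} [AddCommGroup G] [AddCommGroup T] [AddCommGroup R]
  {π : G →+ T} {h P Q : ℕ} [NeZero h] [NeZero P] [NeZero Q] [Fintype D]

namespace Decomp

variable {ψ : ZMod h → ZMod P × ZMod Q}

omit [NeZero h] [NeZero P] [NeZero Q] in
lemma kind_zpow (δ : Decomp ψ) (j : ℤ) : ∀ e, δ.kind ((δ.τ ^ j) e) = δ.kind e := by
  induction j using Int.induction_on with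
  | zero => simp
  | succ i ih => intro e; rw [zpow_add_one, Equiv.Perm.mul_apply, ih, δ.kind_τ]
  | pred i ih =>
    intro e
    rw [zpow_sub_one, Equiv.Perm.mul_apply, ih]
    have := δ.kind_τ (δ.τ⁻¹ e)
    simpa using this.symm

omit [NeZero h] [NeZero P] [NeZero Q] in
lemma value_zpow (δ : Decomp ψ) (j : ℤ) : ∀ e,
    ψ ((δ.τ ^ j) e) = ψ e + j • (if δ.kind e then (0, 1) else (1, 0)) := by
  induction j using Int.induction_on with
  | zero => simp
  | succ i ih =>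
    intro e
    rw [add_comm (i : ℤ) 1, zpow_one_add, Equiv.Perm.mul_apply, δ.step, ih, δ.kind_zpow,
      add_zsmul, one_zsmul]
    abel
  | pred i ih =>
    intro e
    have h1 := δ.step ((δ.τ ^ (-(i : ℤ) - 1)) e)
    rw [δ.kind_zpow, ← Equiv.Perm.mul_apply, ← zpow_one_add,
      show 1 + (-(i : ℤ) - 1) = -(i : ℤ) by ring, ih] at h1
    rw [sub_zsmul, one_zsmul, ← sub_eq_iff_eq_add.2 h1]
    abel

omit [NeZero h] [NeZero P] [NeZero Q] in
lemma zpow_congr (δ : Decomp ψ) {N : ℕ} {e : ZMod h}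
    (hN : (δ.τ ^ N) e = e) {j j' : ℤ} (hj : (j : ZMod N) = (j' : ZMod N)) :
    (δ.τ ^ j) e = (δ.τ ^ j') e := by
  obtain ⟨q, hq⟩ := (ZMod.intCast_eq_intCast_iff_dvd_sub j' j N).1 hj.symm
  rw [show j = j' + (N : ℤ) * q by omega, zpow_add, Equiv.Perm.mul_apply, zpow_mul, zpow_natCast,
    Equiv.Perm.zpow_apply_eq_self_of_apply_eq_self hN]

end Decomp

namespace WinData

omit [Fintype D] [NeZero h] [NeZero P] [NeZero Q] in
lemma shift_zsmul {β : Type} {d : Pl} {st : T} {f : Pl → T → β} (e : β ≃ β)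
    (hf : ∀ n t, f (n + d) (t + st) = e (f n t)) (m : ℤ) :
    ∀ n t, f (n + m • d) (t + m • st) = (e ^ m) (f n t) := by
  induction m using Int.induction_on with
  | zero => simp
  | succ i ih =>
    intro n t
    rw [add_comm (i : ℤ) 1, zpow_one_add, Equiv.Perm.mul_apply, ← ih, ← hf, add_zsmul, add_zsmul,
      one_zsmul, one_zsmul]
    congr 1 <;> abel
  | pred i ih =>
    intro n t
    apply e.injective
    rw [← hf, ← Equiv.Perm.mul_apply, ← zpow_one_add,
      show 1 + (-(i : ℤ) - 1) = -(i : ℤ) by ring, ← ih, sub_zsmul, sub_zsmul, one_zsmul, one_zsmul]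
    congr 1 <;> abel


theorem exact (W : WinData π R D h P Q) {α : Pl → T → G} {O : Type}
    {ψ : O → ZMod h → ZMod P × ZMod Q} (dec : ∀ o, Decomp (ψ o))
    (orb : Pl → T → O) (K : Pl → T → ZMod h) (φ : Pl → ℤ)
    (hφd : ∀ n (m : ℤ), φ (n + m • W.d) = φ n + m) (hφv : ∀ n k, φ (n + W.dv k) = φ n)
    (horb : ∀ n t, orb (n + W.d) (t + W.st) = orb n t)
    (horbv : ∀ n t k, orb (n + W.dv k) t = orb n t)
    (hK : ∀ n t, K (n + W.d) (t + W.st) = K n t + 1)
    (hKv : ∀ n t k, K (n + W.dv k) t = K n t)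
    (hval : ∀ n t, W.val (α n t) = ψ (orb n t) (K n t))
    (hreg : ∀ n g, ∃ e : ZMod h, ∀ m : ℤ, ∃ k0 : D, ∀ k : D,
      W.reg (α (n - m • W.d - W.dv k) (π g - m • W.st)) + m • W.r1 = W.reg g ↔
        label dec orb K φ (n - m • W.d) (π g - m • W.st) = e ∧ k = k0) :
    W.eqn.Holds α := by
  intro n g
  obtain ⟨e, he⟩ := hreg n g
  set o := orb n (π g) with ho
  set δ := dec o with hδ
  have horb' : ∀ (m : ℤ) n t, orb (n + m • W.d) (t + m • W.st) = orb n t := fun m n t => by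
    have := shift_zsmul (f := orb) (Equiv.refl O) (fun n t => horb n t) m n t
    rw [this, show (Equiv.refl O : Equiv.Perm O) = 1 from rfl, one_zpow]
    rfl
  have hK' : ∀ (m : ℤ) n t, K (n + m • W.d) (t + m • W.st) = K n t + m := fun m n t => by
    have := shift_zsmul (f := K) (Equiv.addRight (1 : ZMod h)) (fun n t => hK n t) m n t
    rw [this, Equiv.zsmul_addRight, Equiv.coe_addRight, zsmul_one]
  have hfst : ∀ m : ℤ, orb (n - m • W.d) (π g - m • W.st) = o ∧
      K (n - m • W.d) (π g - m • W.st) = K n (π g) - m := fun m => by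
    refine ⟨?_, ?_⟩
    · have := horb' (-m) n (π g)
      simpa [sub_eq_add_neg] using this
    · have := hK' (-m) n (π g)
      simpa [sub_eq_add_neg] using this
  have hlab : ∀ m : ℤ, label dec orb K φ (n - m • W.d) (π g - m • W.st) = e ↔
      K n (π g) - m = (δ.τ ^ (φ n - m)) e := by
    intro m
    have hφ' : φ (n - m • W.d) = φ n - m := by
      have := hφd n (-m)
      simpa [sub_eq_add_neg] using this
    have key : ∀ j : ℤ, (δ.τ ^ (-j)) (K n (π g) - m) = e ↔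
        K n (π g) - m = (δ.τ ^ j) e := fun j => by
      rw [zpow_neg]
      exact Equiv.Perm.inv_eq_iff_eq.trans eq_comm |>.trans eq_comm
    have hτ : (dec (orb (n - m • W.d) (π g - m • W.st))).τ = δ.τ := by
      rw [hδ]; exact congrArg (fun o => (dec o).τ) (hfst m).1
    simp only [label, hτ, (hfst m).2, hφ']
    exact key _
  have hv : ∀ (m : ℤ) (k : D), W.val (α (n - m • W.d - W.dv k) (π g - m • W.st))
      = ψ o (K n (π g) - m) := by
    intro m k
    have e1 := horbv (n - m • W.d - W.dv k) (π g - m • W.st) k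
    have e2 := hKv (n - m • W.d - W.dv k) (π g - m • W.st) k
    rw [sub_add_cancel] at e1 e2
    rw [hval, ← e1, ← e2, (hfst m).1, (hfst m).2]
  have hc : ∀ p : (ZMod h × (ZMod P × ZMod Q)) × D, π (W.eqn.c p) = W.m p.1 • W.st ∧
      W.val (W.eqn.c p) = winVal p.1.2 ∧ W.reg (W.eqn.c p) = W.m p.1 • W.r1 :=
    fun p => Classical.choose_spec (W.lift (W.m p.1) (winVal p.1.2))
  choose k0 hk0 using he
  have hcond : ∀ p : (ZMod h × (ZMod P × ZMod Q)) × D,
      g - α (n - W.eqn.v p) (π g - π (W.eqn.c p)) - W.eqn.c p ∈ W.eqn.K ↔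
      (W.val g = ψ o ((δ.τ ^ (φ n - W.m p.1)) e) + winVal p.1.2 ∧
        K n (π g) - (W.m p.1 : ZMod h) = (δ.τ ^ (φ n - W.m p.1)) e) ∧ p.2 = k0 (W.m p.1) := by
    intro p
    obtain ⟨h1, h2, h3⟩ := hc p
    change g - α (n - (W.m p.1 • W.d + W.dv p.2)) (π g - π (W.eqn.c p)) - W.eqn.c p ∈
      W.val.ker ⊓ W.reg.ker ↔ _
    rw [AddSubgroup.mem_inf, AddMonoidHom.mem_ker, AddMonoidHom.mem_ker, h1, ← sub_sub n,
      map_sub, map_sub, map_sub, map_sub, h2, h3, hv, sub_sub, sub_sub, sub_eq_zero, sub_eq_zero,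
      eq_comm (a := W.reg g), hk0, hlab]
    constructor
    · rintro ⟨ha, hb, hk⟩; exact ⟨⟨by rw [← hb]; exact ha, hb⟩, hk⟩
    · rintro ⟨⟨ha, hb⟩, hk⟩; exact ⟨by rw [hb]; exact ha, hb, hk⟩
  have hmh : ∀ p, (W.m p : ZMod h) = p.1 := fun p => by
    simp [m, W.ha.1, W.hb.1, W.hc.1]
  have hmP : ∀ p, (W.m p : ZMod P) = if p.2.2 = 0 then 1 else 0 := fun p => by
    simp [m, W.ha.2.1, W.hb.2.1, W.hc.2.1]
  have hmQ : ∀ p, (W.m p : ZMod Q) = if p.2.1 = 0 then 1 else 0 := fun p => by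
    simp [m, W.ha.2.2, W.hb.2.2, W.hc.2.2]
  suffices ∃! q : ZMod h × (ZMod P × ZMod Q),
      W.val g = ψ o ((δ.τ ^ (φ n - W.m q)) e) + winVal q.2 ∧
        K n (π g) - (W.m q : ZMod h) = (δ.τ ^ (φ n - W.m q)) e by
    obtain ⟨q, hq, hu⟩ := this
    refine ⟨(q, k0 (W.m q)), (hcond _).2 ⟨hq, rfl⟩, fun p hp => ?_⟩
    obtain ⟨hp1, hp2⟩ := (hcond p).1 hp
    have := hu p.1 hp1
    exact Prod.ext this (by rw [hp2, this])
  have hper := δ.cycle e
  have hψ : ∀ j : ℤ, ψ o ((δ.τ ^ j) e) = ψ o e + j • (if δ.kind e then (0, 1) else (1, 0)) :=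
    fun j => δ.value_zpow j e
  cases hk : δ.kind e
  · simp only [hk, Bool.false_eq_true, ↓reduceIte] at hper hψ
    set a1 : ZMod P := (W.val g).1 - (ψ o e).1 - (φ n : ZMod P) with ha1
    set a2 : ZMod Q := (W.val g).2 - (ψ o e).2 - (if a1 = 0 then 1 else 0) with ha2
    set j0 : ℤ := φ n - (if a2 = 0 then 1 else 0) with hj0
    refine ⟨(K n (π g) - (δ.τ ^ j0) e, (a1, a2)), ?_, ?_⟩
    · have hpow : (δ.τ ^ (φ n - W.m (K n (π g) - (δ.τ ^ j0) e, (a1, a2)))) e = (δ.τ ^ j0) e :=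
        δ.zpow_congr hper (by rw [hj0]; push_cast; rw [hmP])
      refine ⟨?_, ?_⟩
      · rw [hψ]
        refine Prod.ext ?_ ?_
        · simp [winVal, hmP, ha1]; ring
        · simp [winVal, ha2]
      · rw [hpow, hmh]; simp
    · rintro ⟨i, b1, b2⟩ ⟨hA, hB⟩
      have hpow : ∀ j' : ℤ, (j' : ZMod P) = (φ n : ZMod P) - (if b2 = 0 then 1 else 0) →
          (δ.τ ^ (φ n - W.m (i, (b1, b2)))) e = (δ.τ ^ j') e := fun j' hj' =>
        δ.zpow_congr hper (by push_cast; rw [hmP, hj'])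
      rw [hψ] at hA
      have e1 := congrArg Prod.fst hA
      have e2 := congrArg Prod.snd hA
      simp [winVal, hmP] at e1 e2
      have q1 : b1 = a1 := by rw [ha1, e1]; abel
      subst q1
      have q2 : b2 = a2 := by rw [ha2, e2]; abel
      subst q2
      rw [hpow j0 (by rw [hj0]; push_cast; rfl), hmh] at hB
      rw [← hB]; simp
  · simp only [hk, ↓reduceIte] at hper hψ
    set a2 : ZMod Q := (W.val g).2 - (ψ o e).2 - (φ n : ZMod Q) with ha2
    set a1 : ZMod P := (W.val g).1 - (ψ o e).1 - (if a2 = 0 then 1 else 0) with ha1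
    set j0 : ℤ := φ n - (if a1 = 0 then 1 else 0) with hj0
    refine ⟨(K n (π g) - (δ.τ ^ j0) e, (a1, a2)), ?_, ?_⟩
    · have hpow : (δ.τ ^ (φ n - W.m (K n (π g) - (δ.τ ^ j0) e, (a1, a2)))) e = (δ.τ ^ j0) e :=
        δ.zpow_congr hper (by rw [hj0]; push_cast; rw [hmQ])
      refine ⟨?_, ?_⟩
      · rw [hψ]
        refine Prod.ext ?_ ?_
        · simp [winVal, ha1]
        · simp [winVal, hmQ, ha2]; ring
      · rw [hpow, hmh]; simp
    · rintro ⟨i, b1, b2⟩ ⟨hA, hB⟩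
      have hpow : ∀ j' : ℤ, (j' : ZMod Q) = (φ n : ZMod Q) - (if b1 = 0 then 1 else 0) →
          (δ.τ ^ (φ n - W.m (i, (b1, b2)))) e = (δ.τ ^ j') e := fun j' hj' =>
        δ.zpow_congr hper (by push_cast; rw [hmQ, hj'])
      rw [hψ] at hA
      have e1 := congrArg Prod.fst hA
      have e2 := congrArg Prod.snd hA
      simp [winVal, hmQ] at e1 e2
      have q2 : b2 = a2 := by rw [ha2, e2]; abel
      subst q2
      have q1 : b1 = a1 := by rw [ha1, e1]; abel
      subst q1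
      rw [hpow j0 (by rw [hj0]; push_cast; rfl), hmh] at hB
      rw [← hB]; simp

end WinData

end Vale.Agent.P043.Z3
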