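import Vale.Agent.P043.Z3.System
import Vale.Agent.P043.Z3.Digit
import Vale.Agent.P043.Z3.Pattern
import Vale.Agent.P043.Z3.WindowExact
import Vale.Agent.P043.Z3.Section

/-! An explicit solution of the system. -/

namespace Vale.Agent.P043.Z3

/-- A short pattern for the prime of a symbol. -/
noncomputable def basePat (c : Comp) (g : Sym) : ZMod (ell c g) → VV c :=
  (exists_pattern (Pc c) (Qc c) (ell c g) (coprime_PQ c) (PQ_lt_ell c g)).choose

/-- The pattern of a symbol on the coordinate of a component. -/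
noncomputable def symPat (c : Comp) (g : Sym) (k : ZMod (hc c)) : VV c :=
  basePat c g (ZMod.castHom (ell_dvd c g) (ZMod (ell c g)) k)

theorem symPat_decomp (c : Comp) (g : Sym) : Nonempty (Decomp (symPat c g)) :=
  decomp_lift (ell_dvd c g) (ell_coprime_cofactor c g)
    (exists_pattern (Pc c) (Qc c) (ell c g) (coprime_PQ c) (PQ_lt_ell c g)).choose_spec.some

/-- The decomposition of a symbol pattern. -/
noncomputable def symDec (c : Comp) (g : Sym) : Decomp (symPat c g) := (symPat_decomp c g).some

theorem symPat_unit (c : Comp) {g g' : Sym} (h : g' ≠ g) (k : ZMod (hc c)) :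
    symPat c g' (k + unitSym c g) = symPat c g' k := by
  rw [symPat, symPat, map_add, cast_unitSym c h, add_zero]

/-- The class of `y` modulo thirteen in which an exceptional component moves. -/
def classOf (j : Bool) : ZMod 13 := if j then 4 else 6

theorem classOf_spec (j : Bool) (y : ℤ) (h : (y : ZMod 13) = classOf j) :
    ((6 * y + 3 : ℤ) : ZMod 13) = mark j := by
  push_cast
  rw [h]
  cases j <;> decide

theorem excDec_exists (j : Bool) : ∃ f : ZMod 13 → VV (Uc j), Nonempty (Decomp
    fun k : ZMod (13 * hc (Uc j)) =>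
      if ZMod.castHom (dvd_mul_right 13 _) (ZMod 13) k = classOf j then
        symPat (Uc j) 0 (ZMod.castHom (dvd_mul_left _ 13) (ZMod (hc (Uc j))) k)
      else f (ZMod.castHom (dvd_mul_right 13 _) (ZMod 13) k)) :=
  exists_exceptional_pattern (by cases j <;> simp [Pc]) (coprime_thirteen_hc _) _ (symDec _ 0)

/-- The constant values of an exceptional component off its moving class. -/
noncomputable def excConst (j : Bool) : ZMod 13 → VV (Uc j) := (excDec_exists j).choose

/-- The pattern of an exceptional component. -/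
noncomputable def excPat (j : Bool) (k : ZMod (13 * hc (Uc j))) : VV (Uc j) :=
  if ZMod.castHom (dvd_mul_right 13 _) (ZMod 13) k = classOf j then
    symPat (Uc j) 0 (ZMod.castHom (dvd_mul_left _ 13) (ZMod (hc (Uc j))) k)
  else excConst j (ZMod.castHom (dvd_mul_right 13 _) (ZMod 13) k)

/-- The decomposition of an exceptional pattern. -/
noncomputable def excDec (j : Bool) : Decomp (excPat j) := (excDec_exists j).choose_spec.some

/-- The position in the window of an exceptional component. -/
noncomputable def excPos (j : Bool) (n : Pl) (t : TT) : ZMod (13 * hc (Uc j)) :=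
  (ZMod.chineseRemainder (coprime_thirteen_hc (Uc j))).symm ((n.2 : ZMod 13), t (Uc j))

theorem crt13_casts {l : ℕ} (hco : Nat.Coprime 13 l) (k : ZMod (13 * l)) :
    ZMod.chineseRemainder hco k = (ZMod.castHom (dvd_mul_right 13 l) (ZMod 13) k,
      ZMod.castHom (dvd_mul_left l 13) (ZMod l) k) :=
  Prod.ext
    (RingHom.congr_fun (RingHom.ext_zmod
      ((RingHom.fst (ZMod 13) (ZMod l)).comp (ZMod.chineseRemainder hco).toRingHom)
      (ZMod.castHom (dvd_mul_right 13 l) (ZMod 13))) k)
    (RingHom.congr_fun (RingHom.ext_zmod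
      ((RingHom.snd (ZMod 13) (ZMod l)).comp (ZMod.chineseRemainder hco).toRingHom)
      (ZMod.castHom (dvd_mul_left l 13) (ZMod l))) k)

theorem excPos_casts (j : Bool) (n : Pl) (t : TT) :
    ZMod.castHom (dvd_mul_right 13 _) (ZMod 13) (excPos j n t) = (n.2 : ZMod 13) ∧
      ZMod.castHom (dvd_mul_left _ 13) (ZMod (hc (Uc j))) (excPos j n t) = t (Uc j) := by
  have := crt13_casts (coprime_thirteen_hc (Uc j)) (excPos j n t)
  rw [excPos, RingEquiv.apply_symm_apply, Prod.ext_iff] at this
  exact ⟨this.1.symm, this.2.symm⟩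

/-- The symbol shown by an index at a point. -/
def symAt (i : Idx) (n : Pl) : Sym := canon i (MM i n)

/-- The value of a component in the solution. -/
noncomputable def solVal : ∀ c : Comp, Pl → TT → VV c
  | .inl x => fun n t => symPat (.inl x) (symAt x.2 n) (t (.inl x))
  | .inr j => fun n t => excPat j (excPos j n t)

/-- The label of a symbol component. -/
noncomputable def labY (x : Bool × Idx) (n : Pl) (t : TT) : ZMod (hc (.inl x)) :=
  WinData.label (fun g => symDec (.inl x) g) (fun n _ => symAt x.2 n) (fun _ t => t (.inl x))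
    (phiY x.2) n t

/-- The label of an exceptional component. -/
noncomputable def labU (j : Bool) (n : Pl) (t : TT) : ZMod (13 * hc (Uc j)) :=
  WinData.label (fun _ : Unit => excDec j) (fun _ _ => ()) (excPos j) (fun n => n.2) n t

theorem labU_congr (j : Bool) {n n' : Pl} {t t' : TT} (hn : n.2 = n'.2)
    (ht : t (Uc j) = t' (Uc j)) : labU j n t = labU j n' t' := by
  simp only [labU, WinData.label, excPos, hn, ht]

/-- The register of a component in the solution. -/
noncomputable def solReg : ∀ c : Comp, Pl → TT → ZMod (hc c ^ 2)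
  | .inl x => fun n t => digit (phiY x.2 n) (t (.inl x)) (labY x n t)
  | .inr j => fun n t => digit n.2 (t (Uc j))
      (ZMod.castHom (dvd_mul_left _ 13) (ZMod (hc (Uc j))) (labU j n t))

/-- The part modulo thirteen of an exceptional label. -/
noncomputable def lab13 (j : Bool) (n : Pl) (t : TT) : ZMod 13 :=
  ZMod.castHom (dvd_mul_right 13 _) (ZMod 13) (labU j n t)

/-- The shared register in the solution. -/
noncomputable def solQ (n : Pl) (t : TT) : ZMod 169 :=
  two13 (lab13 false n t + (n.1 : ZMod 13), lab13 true n t)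

/-- The solution. -/
noncomputable def sol (n : Pl) (t : TT) : GG :=
  mkG (fun c => solVal c n t) (fun c => solReg c n t) (solQ n t)

theorem sol_section : IsSection pr sol := by
  intro n t
  funext c
  rw [pr_apply, sol, regC_mkG]
  rcases c with x | j <;> exact digit_cast _ _ _

theorem X_sol (c : Comp) : X c sol = solVal c := rfl

theorem solVal_congr (c : Comp) (n : Pl) {t t' : TT} (h : t c = t' c) :
    solVal c n t = solVal c n t' := by
  rcases c with x | j
  · simp only [solVal, h]
  · simp only [solVal, excPos, h]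

theorem single_mem_periods {c c' : Comp} (h : c ≠ c') (a : ZMod (hc c')) :
    ((0, Pi.single c' a) : Pl × TT) ∈ periodsOf (X c sol) := fun n t => by
  rw [add_zero, X_sol]
  exact solVal_congr c n (by simp [Pi.single_eq_of_ne h])

theorem stepT_smul_self (c : Comp) (t : TT) (m : ℤ) :
    (t - m • stepT c) c = t c - (m : ZMod (hc c)) := by
  simp [stepT]

theorem holds_winY (x : Bool × Idx) : (winY x).eqn.Holds sol := by
  refine WinData.exact (winY x) (fun g => symDec (.inl x) g) (fun n _ => symAt x.2 n)
    (fun _ t => t (.inl x)) (phiY x.2) (fun n m => phiY_add _ _ _)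
    (fun n k => by rw [show (winY x).dv k = 0 from rfl, add_zero])
    (fun n t => by
      show canon x.2 (MM x.2 (n + dY x.2)) = canon x.2 (MM x.2 n)
      rw [← one_smul ℤ (dY x.2), MM_add])
    (fun n t k => by rw [show (winY x).dv k = 0 from rfl, add_zero])
    (fun n t => by
      show (t + stepT (.inl x)) (.inl x) = t (.inl x) + 1
      simp [stepT])
    (fun n t k => rfl) (fun n t => rfl) fun n g => ?_
  obtain ⟨e, he⟩ := digit_surjective (phiY x.2 n) (pr_apply g (.inl x)).symm
  refine ⟨e, fun m => ⟨(), fun k => ?_⟩⟩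
  show solReg (.inl x) (n - m • dY x.2 - 0) (pr g - m • stepT (.inl x)) + m • (1 : ZMod _) =
      regC (.inl x) g ↔ labY x (n - m • dY x.2) (pr g - m • stepT (.inl x)) = e ∧ k = ()
  rw [sub_zero, zsmul_one]
  simp only [solReg]
  rw [stepT_smul_self]
  have hphi : phiY x.2 (n - m • dY x.2) = phiY x.2 n - m := by
    rw [sub_eq_add_neg, ← neg_smul, phiY_add, sub_eq_add_neg]
  rw [hphi, digit_step, ← he, (digit_injective _ _).eq_iff]
  exact ⟨fun h => ⟨h, trivial⟩, fun h => h.1⟩

theorem excPos_step (j : Bool) (n : Pl) (t : TT) :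
    excPos j (n + (0, 1)) (t + stepT (Uc j)) = excPos j n t + 1 := by
  rw [excPos, excPos, ← map_one (ZMod.chineseRemainder (coprime_thirteen_hc (Uc j))).symm,
    ← map_add]
  congr 1
  simp [stepT, Prod.ext_iff]

theorem excReg_iff (j : Bool) (n : Pl) (g : GG) (e : ZMod (hc (Uc j)))
    (he : digit n.2 (pr g (Uc j)) e = regC (Uc j) g) (m : ℤ) {n' : Pl} (hn : n'.2 = n.2 - m)
    (hcell : Pl) (hcell' : hcell.2 = n.2 - m) :
    solReg (Uc j) hcell (pr g - m • stepT (Uc j)) + (m : ZMod (hc (Uc j) ^ 2)) = regC (Uc j) g ↔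
      ZMod.castHom (dvd_mul_left _ 13) (ZMod (hc (Uc j)))
        (labU j n' (pr g - m • stepT (Uc j))) = e := by
  simp only [solReg]
  rw [stepT_smul_self, hcell', labU_congr j (hcell'.trans hn.symm) rfl, digit_step, ← he,
    (digit_injective _ _).eq_iff]

theorem zsmul_one_zero {R S : Type} [Ring R] [AddCommGroup S] (m : ℤ) :
    m • ((1, 0) : R × S) = ((m : R), 0) := by
  rw [Prod.smul_mk, smul_zero, zsmul_one]

theorem crt13_eq_iff {l : ℕ} (hco : Nat.Coprime 13 l) (k : ZMod (13 * l)) (a : ZMod 13)
    (b : ZMod l) : k = (ZMod.chineseRemainder hco).symm (a, b) ↔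
      ZMod.castHom (dvd_mul_right 13 l) (ZMod 13) k = a ∧
        ZMod.castHom (dvd_mul_left l 13) (ZMod l) k = b := by
  rw [RingEquiv.eq_symm_apply, crt13_casts, Prod.mk.injEq]

theorem holds_winU0 : winU0.eqn.Holds sol := by
  refine WinData.exact winU0 (fun _ : Unit => excDec false) (fun _ _ => ()) (excPos false)
    (fun n => n.2) (fun n m => by simp [winU0]) (fun n k => by simp [winU0])
    (fun _ _ => rfl) (fun _ _ _ => rfl) (fun n t => excPos_step false n t)
    (fun n t k => by rw [show winU0.dv k = 0 from rfl, add_zero]) (fun n t => rfl) fun n g => ?_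
  obtain ⟨e, he⟩ := digit_surjective n.2 (pr_apply g (Uc false)).symm
  refine ⟨(ZMod.chineseRemainder (coprime_thirteen_hc (Uc false))).symm
    (qreg13 g - (n.1 : ZMod 13), e), fun m => ⟨(), fun k => ?_⟩⟩
  have hn2 : (n - m • ((0, 1) : Pl)).2 = n.2 - m := by simp
  have hn1 : (n - m • ((0, 1) : Pl)).1 = n.1 := by simp
  show (regC (Uc false) (sol (n - m • ((0, 1) : Pl) - 0) (pr g - m • stepT (Uc false))),
      qreg13 (sol (n - m • ((0, 1) : Pl) - 0) (pr g - m • stepT (Uc false)))) +
      m • ((1, 0) : ZMod (hc (Uc false) ^ 2) × ZMod 13) = (regC (Uc false) g, qreg13 g) ↔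
    labU false (n - m • ((0, 1) : Pl)) (pr g - m • stepT (Uc false)) = _ ∧ k = ()
  rw [sub_zero, zsmul_one_zero, Prod.mk_add_mk, add_zero, Prod.mk.injEq,
    crt13_eq_iff]
  have hq : qreg13 (sol (n - m • ((0, 1) : Pl)) (pr g - m • stepT (Uc false))) =
      lab13 false (n - m • ((0, 1) : Pl)) (pr g - m • stepT (Uc false)) + (n.1 : ZMod 13) := by
    rw [← hn1]
    exact two13_fst _
  rw [hq, show regC (Uc false) (sol _ _) = solReg (Uc false) _ _ from rfl,
    excReg_iff false n g e he m hn2 _ hn2, ← eq_sub_iff_add_eq]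
  exact ⟨fun h => ⟨⟨h.2, h.1⟩, rfl⟩, fun h => ⟨h.1.2, h.1.1⟩⟩

theorem holds_winU1 : winU1.eqn.Holds sol := by
  refine WinData.exact winU1 (fun _ : Unit => excDec true) (fun _ _ => ()) (excPos true)
    (fun n => n.2) (fun n m => by simp [winU1]) (fun n k => by simp [winU1])
    (fun _ _ => rfl) (fun _ _ _ => rfl) (fun n t => excPos_step true n t)
    (fun n t k => by simp [excPos, winU1]) (fun n t => rfl) fun n g => ?_
  obtain ⟨e, he⟩ := digit_surjective n.2 (pr_apply g (Uc true)).symm
  obtain ⟨⟨a, b⟩, hab⟩ := two13_surjective (qreg g)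
  refine ⟨(ZMod.chineseRemainder (coprime_thirteen_hc (Uc true))).symm (b, e), fun m =>
    ⟨lab13 false (n - m • ((0, 1) : Pl)) (pr g - m • stepT (Uc true)) + (n.1 : ZMod 13) - a,
      fun k => ?_⟩⟩
  set nm : Pl := n - m • ((0, 1) : Pl) with hnm
  set t' : TT := pr g - m • stepT (Uc true) with ht'
  have hn2 : nm.2 = n.2 - m := by simp [hnm]
  have hn1 : nm.1 = n.1 := by simp [hnm]
  have hc2 : (nm - ((k.val : ℤ), 0)).2 = n.2 - m := by simp [hn2]
  have hc1 : (((nm - ((k.val : ℤ), 0)).1 : ℤ) : ZMod 13) = (n.1 : ZMod 13) - k := by simp [hn1]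
  show (regC (Uc true) (sol (nm - ((k.val : ℤ), 0)) t'), qreg (sol (nm - ((k.val : ℤ), 0)) t')) +
      m • ((1, 0) : ZMod (hc (Uc true) ^ 2) × ZMod 169) = (regC (Uc true) g, qreg g) ↔
    labU true nm t' = _ ∧ k = lab13 false nm t' + (n.1 : ZMod 13) - a
  rw [zsmul_one_zero, Prod.mk_add_mk, add_zero, Prod.mk.injEq, crt13_eq_iff,
    show regC (Uc true) (sol _ _) = solReg (Uc true) _ _ from rfl, ht',
    excReg_iff true n g e he m hn2 _ hc2, ← ht', ← hab,
    show qreg (sol _ _) = solQ _ _ from rfl, solQ, two13_injective.eq_iff, Prod.mk.injEq, hc1,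
    show lab13 false (nm - ((k.val : ℤ), 0)) t' = lab13 false nm t' from congrArg
      (ZMod.castHom (dvd_mul_right 13 _) (ZMod 13)) (labU_congr false (hc2.trans hn2.symm) rfl),
    show lab13 true (nm - ((k.val : ℤ), 0)) t' = lab13 true nm t' from congrArg
      (ZMod.castHom (dvd_mul_right 13 _) (ZMod 13)) (labU_congr true (hc2.trans hn2.symm) rfl)]
  constructor
  · rintro ⟨h1, h2, h3⟩
    exact ⟨⟨h3, h1⟩, by rw [← h2]; abel⟩
  · rintro ⟨⟨h3, h1⟩, hk⟩
    exact ⟨h1, by rw [hk]; abel, h3⟩

theorem holds_sol (e : EqIdx) : (eqs e).Holds sol := by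
  rcases e with ⟨⟨c, c'⟩, hne⟩ | x | ⟨j, b⟩ | (x | (_ | _)) | ⟨⟨i, g, g'⟩, hne⟩ | ⟨g, hg⟩ |
    ⟨⟨j, g⟩, hne⟩
  · exact cls_exact (fun u w huw => absurd (Subsingleton.elim u w) huw) fun n t =>
      ⟨(), single_mem_periods hne 1 n t⟩
  · refine cls_exact (fun u w huw => absurd (Subsingleton.elim u w) huw) fun n t => ⟨(), ?_⟩
    show solVal (.inl x) (n + dY x.2) (t + 0) = solVal (.inl x) n t
    simp only [solVal, symAt, add_zero]
    rw [← one_smul ℤ (dY x.2), MM_add]
  · refine cls_exact (fun u w huw => absurd (Subsingleton.elim u w) huw) fun n t => ⟨(), ?_⟩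
    show solVal (Uc j) (n + if b then (1, 0) else (0, 13)) (t + 0) = solVal (Uc j) n t
    have h13 : (13 : ZMod 13) = 0 := by decide
    cases b <;> simp [solVal, excPos, h13]
  · exact holds_winY x
  · exact holds_winU0
  · exact holds_winU1
  · refine cls_exact (fun u w huw => single_mem_periods (pair_injective.ne huw.symm) _)
      fun n t => ?_
    by_cases hs : symAt i n = g
    · refine ⟨true, ?_⟩
      show solVal (Yc true i) (n + 0) (t + (symMove (Yc true i) g').2) = solVal (Yc true i) n t
      simp only [solVal, symMove, add_zero, Pi.add_apply, Pi.single_eq_same]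
      exact symPat_unit _ (hs ▸ hne) _
    · refine ⟨false, ?_⟩
      show solVal (Yc false i) (n + 0) (t + (symMove (Yc false i) g).2) = solVal (Yc false i) n t
      simp only [solVal, symMove, add_zero, Pi.add_apply, Pi.single_eq_same]
      exact symPat_unit _ hs _
  · refine cls_exact (cs := fun i => Yc false i) (hcs := col_injective)
      (δ := fun i => symMove (Yc false i) (g i)) (α := sol)
      (fun u w huw => single_mem_periods (c := Yc false w) (c' := Yc false u)
        (col_injective.ne huw.symm) (unitSym (Yc false u) (g u))) fun n t => ?_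
    obtain ⟨i, hi⟩ : ∃ i, symAt i n ≠ g i := by
      by_contra hall
      push Not at hall
      obtain ⟨a, b, hab⟩ := canon_compat n
      exact hg ⟨a, b, fun i => ⟨(hab i).1, (hall i).symm.trans (hab i).2⟩⟩
    refine ⟨i, ?_⟩
    show solVal (Yc false i) (n + 0) (t + (symMove (Yc false i) (g i)).2) = solVal (Yc false i) n t
    simp only [solVal, symMove, add_zero, Pi.add_apply, Pi.single_eq_same]
    exact symPat_unit _ hi _
  · refine cls_exact (hcs := linkComp_injective j) (fun u w huw => ?_) fun n t => ?_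
    · cases u <;> cases w
      · exact absurd rfl huw
      · exact single_mem_periods (by simp [linkComp]) _
      · exact single_mem_periods (by simp [linkComp]) _
      · exact absurd rfl huw
    by_cases hs : symAt i10 n = g
    · refine ⟨false, ?_⟩
      show solVal (Uc j) (n + 0) (t + stepT (Uc j)) = solVal (Uc j) n t
      have hy : (n.2 : ZMod 13) ≠ classOf j := fun hy => hne (by
        rw [← hs, ← classOf_spec j n.2 hy]
        simp [symAt, canon, symOf, MM, lin, uC, wC, i10])
      simp only [solVal, excPat, (excPos_casts j _ _).1, add_zero, if_neg hy]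
    · refine ⟨true, ?_⟩
      show solVal (Yc false i10) (n + 0) (t + (symMove (Yc false i10) g).2) =
        solVal (Yc false i10) n t
      simp only [solVal, symMove, add_zero, Pi.add_apply, Pi.single_eq_same]
      exact symPat_unit _ hs _

/-- The system has a solution. -/
theorem exists_solution :
    ∃ A : Set (Pl × GG), FamTiles A (colFam pr.ker) ∧ ∀ e, FamTiles A (eqs e).fam :=
  ⟨graphSet sol, graphSet_col sol_section,
    fun e => (graphSet_eqn_iff sol_section _).2 (holds_sol e)⟩

end Vale.Agent.P043.Z3
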