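import Vale.Agent.P043.Z3.Basic

/-! The exact disjunction equation. -/

namespace Vale.Agent.P043.Z3

variable {G T : Type} [AddCommGroup G] [AddCommGroup T]

/-- Whether coordinate `u` of `v` is shifted: the next coordinate of `v` is zero. -/
def clauseBit {k : ℕ} {V : ZMod k → Type} [∀ u, Zero (V u)] [∀ u, DecidableEq (V u)]
    (v : ∀ u, V u) (u : ZMod k) : ℕ := if v (u + 1) = 0 then 1 else 0

variable {π : G →+ T} {k : ℕ} [NeZero k] {V : ZMod k → Type} [∀ u, AddCommGroup (V u)]
  [∀ u, Fintype (V u)] [∀ u, DecidableEq (V u)]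

/-- The equation saying that at every point some component is invariant under its shift. -/
noncomputable def clauseEqn (val : ∀ u, G →+ V u) (δ : ZMod k → Pl × T)
    (hs : ∀ (v : ∀ u, V u) (t : T), ∃ g, π g = t ∧ ∀ u, val u g = v u) : Eqn π where
  ι := ∀ u, V u
  fin := inferInstance
  v v := ∑ u, clauseBit v u • (δ u).1
  c v := Classical.choose (hs v (∑ u, clauseBit v u • (δ u).2))
  K := ⨅ u, (val u).ker

variable {val : ∀ u, G →+ V u} {δ : ZMod k → Pl × T}
  {hs : ∀ (v : ∀ u, V u) (t : T), ∃ g, π g = t ∧ ∀ u, val u g = v u}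

/-- Shifts along other components are invisible. -/
theorem clause_shift {X Y : Type*} [AddCommGroup X] {U : Type*} [Fintype U] (a : X → Y)
    (d : U → X) (w : U) (hinv : ∀ u, u ≠ w → ∀ b, a (b + d u) = a b) (c : U → ℕ) (b : X) :
    a (b - ∑ u, c u • d u) = a (b - c w • d w) := by
  classical
  have step : ∀ u, u ≠ w → ∀ (m : ℕ) (b : X), a (b - m • d u) = a b := by
    intro u hu m
    induction m with
    | zero => simp
    | succ m ih =>
      intro b
      rw [succ_nsmul, sub_add_eq_sub_sub]
      have := hinv u hu (b - m • d u - d u)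
      rw [sub_add_cancel] at this
      rw [← this, ih]
  have key : ∀ s : Finset U, w ∉ s → ∀ b : X, a (b - ∑ u ∈ s, c u • d u) = a b := by
    intro s
    induction s using Finset.induction with
    | empty => simp
    | insert u s hu ih =>
      intro hw b
      rw [Finset.mem_insert, not_or] at hw
      rw [Finset.sum_insert hu, sub_add_eq_sub_sub, ih hw.2, step u (Ne.symm hw.1)]
  rw [← Finset.add_sum_erase _ _ (Finset.mem_univ w), sub_add_eq_sub_sub,
    key _ (Finset.notMem_erase w _)]

/-- A cyclic system of Boolean equations one of which is constant has exactly one solution. -/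
theorem clause_cycle (f : ZMod k → Bool → Bool) (u0 : ZMod k) (hf : ∀ b, f u0 b = f u0 false) :
    ∃! j : ZMod k → Bool, ∀ u, j (u - 1) = f u (j u) := by
  let seq : ℕ → Bool := fun i =>
    Nat.rec (motive := fun _ => Bool) (f u0 false) (fun i c => f (u0 - 1 - (i : ZMod k)) c) i
  have hseq : ∀ i, seq (i + 1) = f (u0 - 1 - (i : ZMod k)) (seq i) := fun i => rfl
  refine ⟨fun u => seq (u0 - 1 - u).val, fun u => ?_, fun j hj => funext fun u => ?_⟩
  · show seq (u0 - 1 - (u - 1)).val = f u (seq (u0 - 1 - u).val)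
    set i := (u0 - 1 - u).val with hi
    have hcast : (i : ZMod k) = u0 - 1 - u := ZMod.natCast_zmod_val _
    have hnext : u0 - 1 - (u - 1) = ((i + 1 : ℕ) : ZMod k) := by
      push_cast
      rw [hcast]
      ring
    rw [hnext, ZMod.val_natCast]
    by_cases hlast : i + 1 < k
    · rw [Nat.mod_eq_of_lt hlast, hseq, hcast, sub_sub_cancel]
    · have hk : i + 1 = k := by
        have := (u0 - 1 - u).val_lt
        omega
      have hu : u = u0 := by
        rw [hk, ZMod.natCast_self] at hnext
        linear_combination (norm := ring_nf) -hnext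
      rw [hk, Nat.mod_self, hu, hf]
      rfl
  · have key : ∀ i : ℕ, j (u0 - 1 - (i : ZMod k)) = seq i := by
      intro i
      induction i with
      | zero => rw [Nat.cast_zero, sub_zero, hj, hf]; rfl
      | succ i ih =>
        rw [hseq, ← ih, ← hj]
        congr 1
        push_cast
        ring
    have := key (u0 - 1 - u).val
    rwa [ZMod.natCast_zmod_val, sub_sub_cancel] at this

omit [∀ u, Fintype (V u)] in
/-- The values a component takes at a point, shifted or not. -/
theorem clause_val {α : Pl → T → G}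
    (hinv : ∀ u w, u ≠ w → ∀ n t, val w (α (n + (δ u).1) (t + (δ u).2)) = val w (α n t))
    (v : ∀ u, V u) (u : ZMod k) (n : Pl) (t : T) :
    val u (α (n - ∑ w, clauseBit v w • (δ w).1) (t - ∑ w, clauseBit v w • (δ w).2))
      = if v (u + 1) = 0 then val u (α (n - (δ u).1) (t - (δ u).2)) else val u (α n t) := by
  have := clause_shift (fun b : Pl × T => val u (α b.1 b.2)) δ u
    (fun w hw b => hinv w u hw b.1 b.2) (clauseBit v) (n, t)
  simp only [Prod.fst_sub, Prod.snd_sub, Prod.fst_sum, Prod.snd_sum, Prod.smul_fst,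
    Prod.smul_snd] at this
  rw [this, clauseBit]
  split_ifs <;> simp

theorem clause_mem {α : Pl → T → G}
    (hinv : ∀ u w, u ≠ w → ∀ n t, val w (α (n + (δ u).1) (t + (δ u).2)) = val w (α n t))
    (n : Pl) (g : G) (v : ∀ u, V u) :
    g - α (n - (clauseEqn val δ hs).v v) (π g - π ((clauseEqn val δ hs).c v))
        - (clauseEqn val δ hs).c v ∈ (clauseEqn val δ hs).K ↔
      ∀ u, v u = val u g - if v (u + 1) = 0 then val u (α (n - (δ u).1) (π g - (δ u).2))
        else val u (α n (π g)) := by
  obtain ⟨hc, hv⟩ := Classical.choose_spec (hs v (∑ u, clauseBit v u • (δ u).2))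
  simp only [clauseEqn, AddSubgroup.mem_iInf, AddMonoidHom.mem_ker, map_sub, hc, hv,
    clause_val hinv, sub_eq_zero]
  exact forall_congr' fun u => eq_comm

theorem clause_sound {α : Pl → T → G}
    (hinv : ∀ u w, u ≠ w → ∀ n t, val w (α (n + (δ u).1) (t + (δ u).2)) = val w (α n t))
    (H : (clauseEqn val δ hs).Holds α) :
    ∀ n t, ∃ u, val u (α (n + (δ u).1) (t + (δ u).2)) = val u (α n t) := by
  intro n t
  by_contra hne
  rw [not_exists] at hne
  -- at the point `(n, t) + ∑ δ` both the zero value and the differences are hit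
  set N := n + ∑ u, (δ u).1
  set S := t + ∑ u, (δ u).2
  have shift : ∀ u, val u (α N S) = val u (α (n + (δ u).1) (t + (δ u).2)) ∧
      val u (α (N - (δ u).1) (S - (δ u).2)) = val u (α n t) := by
    intro u
    have h1 := clause_shift (fun b : Pl × T => val u (α b.1 b.2)) δ u
      (fun w hw b => hinv w u hw b.1 b.2) (fun _ => 1) (N + (δ u).1, S + (δ u).2)
    have h2 := clause_shift (fun b : Pl × T => val u (α b.1 b.2)) δ u
      (fun w hw b => hinv w u hw b.1 b.2) (fun _ => 1) (N, S)
    simp only [one_nsmul, Prod.fst_sub, Prod.snd_sub, Prod.fst_sum, Prod.snd_sum,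
      add_sub_cancel_right] at h1 h2
    refine ⟨h1.symm.trans ?_, h2.symm.trans ?_⟩
    · congr 2 <;> simp only [N, S] <;> abel
    · congr 2 <;> simp only [N, S] <;> abel
  obtain ⟨g, hg, hgv⟩ := hs (fun u => val u (α (N - (δ u).1) (S - (δ u).2))) S
  obtain ⟨v, -, hu⟩ := H N g
  have hd : ∀ u, val u g - val u (α N S) ≠ 0 := fun u h0 => by
    rw [sub_eq_zero, hgv, (shift u).2, (shift u).1] at h0
    exact hne u h0.symm
  have e1 : (0 : ∀ u, V u) = v := hu _ ((clause_mem hinv N g 0).2 fun u => by
    rw [Pi.zero_apply, Pi.zero_apply, if_pos rfl, hg, ← hgv, sub_self])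
  have e2 : (fun u => val u g - val u (α N S)) = v := hu _ ((clause_mem hinv N g _).2 fun u => by
    rw [if_neg (hd _), hg])
  exact hd 0 (congr_fun (e2.trans e1.symm) 0)

theorem clause_exact {α : Pl → T → G}
    (hinv : ∀ u w, u ≠ w → ∀ n t, val w (α (n + (δ u).1) (t + (δ u).2)) = val w (α n t))
    (h : ∀ n t, ∃ u, val u (α (n + (δ u).1) (t + (δ u).2)) = val u (α n t)) :
    (clauseEqn val δ hs).Holds α := by
  classical
  intro n g
  refine (existsUnique_congr (fun v : ∀ u, V u => clause_mem hinv n g v)).2 ?_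
  set a : ∀ u, V u := fun u => val u (α (n - (δ u).1) (π g - (δ u).2))
  set b : ∀ u, V u := fun u => val u (α n (π g))
  -- some component has equal values at the two places
  obtain ⟨u0, hu0⟩ : ∃ u, a u = b u := by
    obtain ⟨u, hu⟩ := h (n - ∑ w, (δ w).1) (π g - ∑ w, (δ w).2)
    have h1 := clause_shift (fun x : Pl × T => val u (α x.1 x.2)) δ u
      (fun w hw x => hinv w u hw x.1 x.2) (fun _ => 1) (n, π g)
    have h2 := clause_shift (fun x : Pl × T => val u (α x.1 x.2)) δ u
      (fun w hw x => hinv w u hw x.1 x.2) (fun _ => 1) (n + (δ u).1, π g + (δ u).2)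
    simp only [one_nsmul, Prod.fst_sub, Prod.snd_sub, Prod.fst_sum, Prod.snd_sum,
      add_sub_cancel_right] at h1 h2
    refine ⟨u, h1.symm.trans (hu.symm.trans (Eq.trans ?_ h2))⟩
    congr 2 <;> abel
  let f : ZMod k → Bool → Bool := fun u j => decide (val u g = if j then a u else b u)
  obtain ⟨j, hj, hju⟩ := clause_cycle f u0 (fun c => by cases c <;> simp [f, hu0])
  refine ⟨fun u => val u g - if j u then a u else b u, fun u => ?_, fun v hv => ?_⟩
  · show val u g - _ = val u g - _
    congr 1
    have := hj (u + 1)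
    rw [add_sub_cancel_right] at this
    simp only [this, f, decide_eq_true_eq, sub_eq_zero, a, b]
  · have : (fun u => decide (v (u + 1) = 0)) = j := hju _ fun u => by
      rw [sub_add_cancel]
      refine decide_eq_decide.2 ?_
      rw [hv u, sub_eq_zero]
      simp only [decide_eq_true_eq, a, b]
    funext u
    rw [hv u]
    simp only [← this, decide_eq_true_eq, a, b]

end Vale.Agent.P043.Z3
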