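import Mathlib

/-! Jigsaw intervals on the line that force a cyclic order of their indices. -/

namespace Vale.Agent.P043.Z3

variable {K : ℕ} [NeZero K]

/-- The length of one jigsaw interval. -/
def len (K : ℕ) : ℤ := 2 * K + 4

/-- The depth of the dent of the interval with index `e`. -/
def dep (e : Fin K) : ℤ := (e.val : ℤ) + 1

/-- The cells of the piece with index `e`, relative to its start. -/
def InPiece (e : Fin K) (r : ℤ) : Prop :=
  (0 ≤ r ∧ r < len K ∧ r ≠ dep e) ∨ r = len K + dep (e + 1)

theorem dep_range (e : Fin K) : 1 ≤ dep e ∧ dep e ≤ K := by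
  have := e.isLt
  unfold dep
  omega

theorem dep_injective : Function.Injective (dep : Fin K → ℤ) := fun a b h => by
  unfold dep at h
  exact Fin.ext (by omega)

theorem InPiece.zero (e : Fin K) : InPiece e 0 := by
  have := dep_range e
  have : 0 < len K := by unfold len; omega
  exact Or.inl ⟨le_rfl, by omega, by omega⟩

theorem InPiece.bound {e : Fin K} {r : ℤ} (h : InPiece e r) : 0 ≤ r ∧ r < 2 * len K := by
  have := dep_range (e + 1)
  unfold len at *
  unfold InPiece len at h
  omega

/-- The cells of a piece as a finite set. -/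
noncomputable def pieceCells (e : Fin K) : Finset ℤ := by
  classical exact (Finset.Ico 0 (2 * len K)).filter (InPiece e)

theorem mem_pieceCells {e : Fin K} {r : ℤ} : r ∈ pieceCells e ↔ InPiece e r := by
  classical
  simp only [pieceCells, Finset.mem_filter, Finset.mem_Ico]
  exact ⟨fun h => h.2, fun h => ⟨h.bound, h⟩⟩

/-- The period of the line. -/
def per (K : ℕ) : ℤ := K * len K

theorem shift_dvd (q : Fin K) (j : ℤ) (p : Fin K) (h : (p.val : ℤ) = ((q.val : ℤ) + j) % K) :
    per K ∣ ((q.val : ℤ) + j - p.val) * len K := by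
  refine mul_dvd_mul_right ?_ _
  rw [h]
  exact Int.dvd_self_sub_emod

theorem dvd_congr {k a b : ℤ} (h : k ∣ a) (e : a = b) : k ∣ b := e ▸ h

theorem val_succ_dvd (e : Fin K) :
    per K ∣ ((e.val : ℤ) + 1 - (e + 1 : Fin K).val) * len K := by
  refine shift_dvd e 1 _ ?_
  rw [Fin.val_add, Fin.val_one', Nat.add_mod_mod]
  push_cast
  rfl

/-- The pieces of one block are a system of representatives modulo the period. -/
theorem split (x : ℤ) :
    ∃! p : Fin K × ℤ, InPiece p.1 p.2 ∧ per K ∣ x - ((p.1.val : ℤ) * len K + p.2) := by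
  have hK : (0 : ℤ) < K := by exact_mod_cast NeZero.pos K
  have hL : 0 < len K := by unfold len; omega
  set t := x % len K with ht
  have ht0 : 0 ≤ t := Int.emod_nonneg _ hL.ne'
  have ht1 : t < len K := Int.emod_lt_of_pos _ hL
  set b := (x / len K) % K with hb
  have hb0 : 0 ≤ b := Int.emod_nonneg _ hK.ne'
  have hb1 : b < K := Int.emod_lt_of_pos _ hK
  let q : Fin K := ⟨b.toNat, by omega⟩
  have hq : (q.val : ℤ) = b := by simp [q, hb0]
  have hx : per K ∣ x - ((q.val : ℤ) * len K + t) := by
    have h : x - ((q.val : ℤ) * len K + t) = (x / len K - b) * len K := by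
      have h' := Int.emod_add_mul_ediv x (len K)
      rw [← ht] at h'
      rw [hq]
      linear_combination -h'
    rw [h]
    exact mul_dvd_mul_right Int.dvd_self_sub_emod _
  -- every solution has its block and offset determined by the residue
  have key : ∀ (e : Fin K) (s : ℤ), 0 ≤ s → s < len K →
      per K ∣ x - ((e.val : ℤ) * len K + s) → e = q ∧ s = t := by
    intro e s hs0 hs1 hd
    obtain ⟨k, hk⟩ := dvd_sub hd hx
    have hk' : (q.val : ℤ) * len K + t = (e.val : ℤ) * len K + s + per K * k := by linarith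
    have hlen : len K * ((q.val : ℤ) - e.val - K * k) = s - t := by
      unfold per at hk'
      linear_combination hk'
    have hz : (q.val : ℤ) - e.val - K * k = 0 := by
      by_contra hne
      rcases lt_or_gt_of_ne hne with h | h <;> nlinarith
    rw [hz, mul_zero] at hlen
    have hk0 : k = 0 := by
      by_contra hne
      have := q.isLt
      have := e.isLt
      rcases lt_or_gt_of_ne hne with h | h <;> nlinarith
    exact ⟨Fin.ext (by rw [hk0, mul_zero] at hz; omega), by omega⟩
  -- a bump sits at the dent of the next block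
  have hbump : ∀ e : Fin K, per K ∣ x - ((e.val : ℤ) * len K + (len K + dep (e + 1))) ↔
      per K ∣ x - (((e + 1 : Fin K).val : ℤ) * len K + dep (e + 1)) := fun e => by
    rw [← dvd_add_left (val_succ_dvd e)]
    ring_nf
  by_cases htd : t = dep q
  · refine ⟨(q - 1, len K + dep q), ⟨Or.inr ?_, ?_⟩, ?_⟩
    · rw [sub_add_cancel]
    · have := (hbump (q - 1)).2 (by rw [sub_add_cancel, ← htd]; exact hx)
      rwa [sub_add_cancel] at this
    · rintro ⟨e, r⟩ ⟨h | h, hd⟩
      · obtain ⟨rfl, rfl⟩ := key e r h.1 h.2.1 hd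
        exact absurd htd h.2.2
      · have hr := dep_range (e + 1)
        have hlt : dep (e + 1) < len K := by unfold len; omega
        dsimp only at h
        subst h
        obtain ⟨hq', -⟩ := key (e + 1) _ (by omega) hlt ((hbump e).1 hd)
        rw [← hq']
        simp
  · refine ⟨(q, t), ⟨Or.inl ⟨ht0, ht1, htd⟩, hx⟩, ?_⟩
    rintro ⟨e, r⟩ ⟨h | h, hd⟩
    · obtain ⟨rfl, rfl⟩ := key e r h.1 h.2.1 hd
      rfl
    · have hr := dep_range (e + 1)
      have hlt : dep (e + 1) < len K := by unfold len; omega
      dsimp only at h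
      subst h
      obtain ⟨hq', ht'⟩ := key (e + 1) _ (by omega) hlt ((hbump e).1 hd)
      rw [hq'] at ht'
      exact absurd ht'.symm htd

/-- In a tiling of the line by the pieces all starts lie in one progression with rising index. -/
theorem line {S : Set (ℤ × Fin K)} (hS : ∀ x, ∃! p, p ∈ S ∧ InPiece p.2 (x - p.1)) :
    (∃ a, (a, (0 : Fin K)) ∈ S) ∧ ∀ a e b e', (a, e) ∈ S → (b, e') ∈ S →
      per K ∣ (a - (e.val : ℤ) * len K) - (b - (e'.val : ℤ) * len K) := by
  have huniq : ∀ {a b : ℤ} {e e' : Fin K} (x : ℤ), (a, e) ∈ S → (b, e') ∈ S →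
      InPiece e (x - a) → InPiece e' (x - b) → (a, e) = (b, e') :=
    fun x h1 h2 h3 h4 => (hS x).unique ⟨h1, h3⟩ ⟨h2, h4⟩
  have hL : 0 < len K := by unfold len; omega
  have hlt : ∀ e : Fin K, 1 ≤ dep e ∧ dep e < len K ∧ ∀ e' : Fin K, dep e + dep e' + 1 < len K :=
    fun e => ⟨(dep_range e).1, by have := dep_range e; unfold len; omega,
      fun e' => by have := dep_range e; have := dep_range e'; unfold len; omega⟩
  -- starts are separated
  have hsep0 : ∀ {a b : ℤ} {e e' : Fin K}, (a, e) ∈ S → (b, e') ∈ S → a ≤ b → b < a + len K →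
      (a, e) = (b, e') := by
    intro a b e e' ha hb hab hba
    have he := hlt e
    have he' := hlt e'
    by_cases hd : b - a = dep e
    · refine huniq (a + len K - 1) ha hb (Or.inl ?_) (Or.inl ?_)
      · have := he.2.2 e
        omega
      · have := he.2.2 e'
        omega
    · exact huniq b ha hb (Or.inl ⟨by omega, by omega, hd⟩) (Or.inl ⟨by omega, by omega, by omega⟩)
  have hsep : ∀ {a b : ℤ} {e e' : Fin K}, (a, e) ∈ S → (b, e') ∈ S → a - len K < b →
      b < a + len K → a = b := by
    intro a b e e' ha hb h1 h2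
    rcases le_total a b with h | h
    · exact congrArg Prod.fst (hsep0 ha hb h h2)
    · exact (congrArg Prod.fst (hsep0 hb ha h (by omega))).symm
  have hsucc : ∀ {a : ℤ} {e : Fin K}, (a, e) ∈ S → (a + len K, e + 1) ∈ S := by
    intro a e ha
    obtain ⟨⟨a', e'⟩, ⟨ha', hin⟩, -⟩ := hS (a + len K)
    have ha'' : a' = a + len K := by
      rcases hin with h | h
      · by_contra hne
        dsimp only at h
        have := hsep ha ha' (by omega) (by omega)
        omega
      · dsimp only at h
        have hd := hlt (e' + 1)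
        have := hsep ha ha' (by omega) (by omega)
        omega
    subst ha''
    by_cases hee : e' = e + 1
    · rwa [hee] at ha'
    exfalso
    have hd := hlt (e + 1)
    have := huniq (a + len K + dep (e + 1)) ha ha' (Or.inr (by ring))
      (Or.inl ⟨by omega, by omega, fun h => hee (dep_injective (by omega))⟩)
    have := congrArg Prod.fst this
    dsimp only at this
    omega
  have hpred : ∀ {a : ℤ} {e : Fin K}, (a, e) ∈ S → (a - len K, e - 1) ∈ S := by
    intro a e ha
    obtain ⟨⟨a', e'⟩, ⟨ha', hin⟩, -⟩ := hS (a - 1)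
    have hs := hsucc ha'
    have ha'' : a' + len K = a := by
      rcases hin with h | h
      · dsimp only at h
        exact (hsep ha hs (by omega) (by omega)).symm
      · dsimp only at h
        have hd := hlt (e' + 1)
        have := hd.2.2 e
        have := hlt e
        have := hsep ha hs (by omega) (by omega)
        omega
    subst ha''
    have := hsep0 ha hs le_rfl (by omega)
    simp only [Prod.mk.injEq, true_and] at this
    subst this
    simpa using ha'
  obtain ⟨⟨a, e⟩, ⟨ha, -⟩, -⟩ := hS 0
  have hall : ∀ j : ℤ, ∃ p : Fin K, (a + j * len K, p) ∈ S ∧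
      per K ∣ ((e.val : ℤ) + j - p.val) * len K := by
    intro j
    induction j using Int.induction_on with
    | zero => exact ⟨e, by simpa using ha, by simp⟩
    | succ i ih =>
      obtain ⟨p, hp, hd⟩ := ih
      refine ⟨p + 1, by convert hsucc hp using 2; ring, ?_⟩
      have := dvd_add hd (val_succ_dvd p)
      exact dvd_congr this (by ring)
    | pred i ih =>
      obtain ⟨p, hp, hd⟩ := ih
      refine ⟨p - 1, by convert hpred hp using 2; ring, ?_⟩
      have h := dvd_sub hd (val_succ_dvd (p - 1))
      rw [sub_add_cancel] at h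
      exact dvd_congr h (by ring)
  have hphase : ∀ b e', (b, e') ∈ S →
      per K ∣ (b - (e'.val : ℤ) * len K) - (a - (e.val : ℤ) * len K) := by
    intro b e' hb
    obtain ⟨p, hp, hd⟩ := hall ((b - a) / len K)
    have h0 := Int.emod_nonneg (b - a) hL.ne'
    have h1 := Int.emod_lt_of_pos (b - a) hL
    have h2 := Int.emod_add_mul_ediv (b - a) (len K)
    have := hsep0 hp hb (by linarith) (by linarith)
    simp only [Prod.mk.injEq] at this
    obtain ⟨h3, rfl⟩ := this
    convert hd using 1
    linear_combination -h3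
  refine ⟨?_, fun b f b' f' hb hb' => ?_⟩
  · obtain ⟨p, hp, hd⟩ := hall (-(e.val : ℤ))
    refine ⟨a + -(e.val : ℤ) * len K, ?_⟩
    have hz : p = 0 := by
      have hK : (K : ℤ) ∣ ((e.val : ℤ) + -(e.val : ℤ) - p.val) :=
        (mul_dvd_mul_iff_right hL.ne').1 hd
      rw [add_neg_cancel, zero_sub, dvd_neg, Int.natCast_dvd_natCast] at hK
      exact Fin.ext (by simpa using Nat.eq_zero_of_dvd_of_lt hK p.isLt)
    rwa [hz] at hp
  · have := dvd_sub (hphase b f hb) (hphase b' f' hb')
    exact dvd_congr this (by ring)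

end Vale.Agent.P043.Z3
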