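import Vale.Agent.P043.Z3.Jigsaw

/-! Finitely many tiling equations on `ℤ × ℤ × ZMod (T * C)` merge into one tile of `ℤ³`. -/

namespace Vale.Agent.P043.Z3

open Finset

/-- Every point is `a + f` in exactly one way, stated by the tile element. -/
def TileBy {G : Type*} [AddCommGroup G] (A : Set G) (F : Finset G) : Prop :=
  ∀ g, ∃! f, f ∈ F ∧ g - f ∈ A

/-- The ambient group of the equations. -/
abbrev G2 (n : ℕ) := ℤ × ℤ × ZMod n

/-- The multiples of `T` in the cyclic coordinate. -/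
def colSet (T C : ℕ) : Finset (G2 (T * C)) :=
  (range C).image fun j => (0, 0, ((T * j : ℕ) : ZMod (T * C)))

section

variable {E T C : ℕ}

/-- All equations, the column equation first. -/
def allEqs (F : Fin E → Finset (G2 (T * C))) : Fin (E + 1) → Finset (G2 (T * C)) :=
  Fin.cons (colSet T C) F

/-- The image of one cell of one piece. -/
def cellPoint (e : Fin (E + 1)) (f : G2 (T * C)) (r : ℤ) : ℤ × ℤ × ℤ :=
  (f.1, f.2.1, per (E + 1) * (f.2.2.val : ℤ) + ((e.val : ℤ) * len (E + 1) + r))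

/-- The merged tile. -/
noncomputable def mergeTile (F : Fin E → Finset (G2 (T * C))) : Finset (ℤ × ℤ × ℤ) :=
  univ.biUnion fun e => (allEqs F e).biUnion fun f => (pieceCells e).image (cellPoint e f)

theorem mem_mergeTile {F : Fin E → Finset (G2 (T * C))} {φ : ℤ × ℤ × ℤ} :
    φ ∈ mergeTile F ↔
      ∃ e, ∃ f ∈ allEqs F e, ∃ r, InPiece e r ∧ cellPoint e f r = φ := by
  simp [mergeTile, mem_pieceCells]

variable [NeZero T] [NeZero C]

theorem cellPoint_injective {e e' : Fin (E + 1)} {f f' : G2 (T * C)} {r r' : ℤ}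
    (hr : InPiece e r) (hr' : InPiece e' r') (h : cellPoint e f r = cellPoint e' f' r') :
    e = e' ∧ f = f' ∧ r = r' := by
  simp only [cellPoint, Prod.mk.injEq] at h
  obtain ⟨h1, h2, h3⟩ := h
  have := (split (K := E + 1) ((e.val : ℤ) * len (E + 1) + r)).unique
    (y₁ := (e, r)) (y₂ := (e', r')) ⟨hr, by simp⟩
    ⟨hr', (Dvd.intro ((f'.2.2.val : ℤ) - f.2.2.val) (by linear_combination -h3))⟩
  simp only [Prod.mk.injEq] at this
  obtain ⟨rfl, rfl⟩ := this
  have hper : per (E + 1) ≠ 0 := mul_ne_zero (by positivity) (by unfold len; omega)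
  have hv : f.2.2.val = f'.2.2.val := by
    have := mul_left_cancel₀ hper (show per (E + 1) * (f.2.2.val : ℤ) = per (E + 1) * f'.2.2.val
      by linarith)
    exact_mod_cast this
  exact ⟨rfl, Prod.ext h1 (Prod.ext h2 (ZMod.val_injective _ hv)), rfl⟩

/-- A common tiling gives a tiling of the merged tile. -/
theorem mergeTile_tiles (F : Fin E → Finset (G2 (T * C))) {A : Set (G2 (T * C))}
    (hA : ∀ e, TileBy A (allEqs F e)) :
    TileBy {b : ℤ × ℤ × ℤ | ∃ k : ℤ, b.2.2 = per (E + 1) * k ∧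
      ((b.1, b.2.1, (k : ZMod (T * C))) : G2 (T * C)) ∈ A} (mergeTile F) := by
  intro g
  obtain ⟨⟨e, r⟩, ⟨hr, k', hk'⟩, huniq⟩ := split (K := E + 1) g.2.2
  obtain ⟨f, ⟨hf, hfA⟩, hfu⟩ := hA e (g.1, g.2.1, (k' : ZMod (T * C)))
  refine ⟨cellPoint e f r, ⟨mem_mergeTile.2 ⟨e, f, hf, r, hr, rfl⟩, k' - f.2.2.val, ?_, ?_⟩, ?_⟩
  · simp only [cellPoint, Prod.snd_sub]
    linear_combination hk'
  · convert hfA using 1
    simp [cellPoint, Prod.ext_iff]
  rintro φ ⟨hφ, k, hk, hkA⟩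
  obtain ⟨e', f', hf', r', hr', rfl⟩ := mem_mergeTile.1 hφ
  simp only [cellPoint, Prod.snd_sub] at hk
  have := huniq (e', r') ⟨hr', k + f'.2.2.val, by linear_combination hk⟩
  simp only [Prod.mk.injEq] at this
  obtain ⟨rfl, rfl⟩ := this
  have hper : per (E + 1) ≠ 0 := mul_ne_zero (by positivity) (by unfold len; omega)
  have hkk : k = k' - f'.2.2.val :=
    mul_left_cancel₀ hper (by linear_combination hk' - hk)
  subst hkk
  rw [hfu f' ⟨hf', by convert hkA using 1; simp [cellPoint, Prod.ext_iff]⟩]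

/-- A tiling of the merged tile gives a common tiling with the same planar periods. -/
theorem of_mergeTile (F : Fin E → Finset (G2 (T * C)))
    (hx : ∃ e, ∃ f ∈ F e, f.1 = 1 ∧ f.2.1 = 0) (hy : ∃ e, ∃ f ∈ F e, f.1 = 0 ∧ f.2.1 = 1)
    {B : Set (ℤ × ℤ × ℤ)} (hB : TileBy B (mergeTile F)) :
    ∃ A : Set (G2 (T * C)), (∀ e, TileBy A (allEqs F e)) ∧
      ∀ u v : ℤ, (∀ b, b + (u, v, 0) ∈ B ↔ b ∈ B) → ∀ a, a + (u, v, 0) ∈ A ↔ a ∈ A := by
  have hzero : ((0, 0, 0) : G2 (T * C)) ∈ allEqs F 0 := by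
    simp only [allEqs, Fin.cons_zero, colSet, mem_image, mem_range]
    exact ⟨0, NeZero.pos C, by simp⟩
  -- the starts of pieces on one line
  let S : ℤ → ℤ → Set (ℤ × Fin (E + 1)) := fun u v =>
    {p | ∃ b ∈ B, ∃ f ∈ allEqs F p.2, b.1 + f.1 = u ∧ b.2.1 + f.2.1 = v ∧
      p.1 = b.2.2 + per (E + 1) * (f.2.2.val : ℤ) + (p.2.val : ℤ) * len (E + 1)}
  have hS : ∀ u v x, ∃! p, p ∈ S u v ∧ InPiece p.2 (x - p.1) := by
    intro u v x
    obtain ⟨φ, ⟨hφ, hφB⟩, hu⟩ := hB (u, v, x)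
    obtain ⟨e, f, hf, r, hr, rfl⟩ := mem_mergeTile.1 hφ
    refine ⟨(x - r, e), ⟨⟨_, hφB, f, hf, ?_, ?_, ?_⟩, by simpa using hr⟩, ?_⟩
    · simp [cellPoint]
    · simp [cellPoint]
    · simp only [cellPoint, Prod.snd_sub]; ring
    rintro ⟨a', e'⟩ ⟨⟨b, hb, f', hf', h1, h2, h3⟩, hin⟩
    dsimp only at h3 hin
    have hb' : (u, v, x) - cellPoint e' f' (x - a') = b := by
      obtain ⟨b1, b2, b3⟩ := b
      simp only [cellPoint, Prod.mk_sub_mk, Prod.mk.injEq] at h1 h2 h3 ⊢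
      exact ⟨by omega, by omega, by linarith⟩
    have := hu (cellPoint e' f' (x - a'))
      ⟨mem_mergeTile.2 ⟨e', f', hf', x - a', hin, rfl⟩, by rwa [hb']⟩
    obtain ⟨he, -, hr'⟩ := cellPoint_injective hin hr this
    exact Prod.ext (show a' = x - r by omega) he
  choose o ho using fun u v => (line (hS u v)).1
  have hphase : ∀ u v, ∀ b ∈ B, ∀ e, ∀ f ∈ allEqs F e, b.1 + f.1 = u → b.2.1 + f.2.1 = v →
      per (E + 1) ∣ b.2.2 - o u v := by
    intro u v b hb e f hf h1 h2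
    have hmem : (b.2.2 + per (E + 1) * (f.2.2.val : ℤ) + (e.val : ℤ) * len (E + 1), e) ∈ S u v :=
      ⟨b, hb, f, hf, h1, h2, rfl⟩
    have := dvd_sub ((line (hS u v)).2 _ _ _ _ hmem (ho u v))
      (dvd_mul_right (per (E + 1)) (f.2.2.val : ℤ))
    exact dvd_congr this (by simp; ring)
  have hstep : ∀ e : Fin E, ∀ f ∈ F e, ∀ u v,
      per (E + 1) ∣ o (u + f.1) (v + f.2.1) - o u v := by
    intro e f hf u v
    obtain ⟨b, hb, g, hg, h1, h2, -⟩ := ho u v
    have hg' : g.1 = 0 ∧ g.2.1 = 0 := by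
      simp only [allEqs, Fin.cons_zero, colSet, mem_image, mem_range] at hg
      obtain ⟨j, -, rfl⟩ := hg
      exact ⟨rfl, rfl⟩
    have hf' : f ∈ allEqs F e.succ := by simpa [allEqs] using hf
    have hd1 := hphase u v b hb 0 _ hzero (by simp; omega) (by simp; omega)
    have hd2 := hphase (u + f.1) (v + f.2.1) b hb e.succ f hf' (by omega) (by omega)
    exact dvd_congr (dvd_sub hd1 hd2) (by ring)
  have hconst : ∀ u v, per (E + 1) ∣ o u v - o 0 0 := by
    obtain ⟨ex, fx, hfx, hx1, hx2⟩ := hx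
    obtain ⟨ey, fy, hfy, hy1, hy2⟩ := hy
    have h1 : ∀ u, per (E + 1) ∣ o u 0 - o 0 0 := by
      intro u
      induction u using Int.induction_on with
      | zero => simp
      | succ i ih =>
        have h := hstep ex fx hfx i 0
        rw [hx1, hx2, add_zero] at h
        exact dvd_congr (dvd_add ih h) (by ring)
      | pred i ih =>
        have h := hstep ex fx hfx (-(i : ℤ) - 1) 0
        rw [hx1, hx2, add_zero, sub_add_cancel] at h
        exact dvd_congr (dvd_sub ih h) (by ring)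
    intro u v
    induction v using Int.induction_on with
    | zero => exact h1 u
    | succ i ih =>
      have h := hstep ey fy hfy u i
      rw [hy1, hy2, add_zero] at h
      exact dvd_congr (dvd_add ih h) (by ring)
    | pred i ih =>
      have h := hstep ey fy hfy u (-(i : ℤ) - 1)
      rw [hy1, hy2, add_zero, sub_add_cancel] at h
      exact dvd_congr (dvd_sub ih h) (by ring)
  have hBc : ∀ b ∈ B, per (E + 1) ∣ b.2.2 - o 0 0 := fun b hb =>
    dvd_congr (dvd_add (hphase b.1 b.2.1 b hb 0 _ hzero (by simp) (by simp))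
      (hconst b.1 b.2.1)) (by ring)
  -- the unwrapped common tiling
  let P : ℤ → ℤ → ℤ → Prop := fun u v k => ((u, v, o 0 0 + per (E + 1) * k) : ℤ × ℤ × ℤ) ∈ B
  have hP : ∀ e u v k, ∃! f, f ∈ allEqs F e ∧ P (u - f.1) (v - f.2.1) (k - (f.2.2.val : ℤ)) := by
    intro e u v k
    set x := o 0 0 + per (E + 1) * k + (e.val : ℤ) * len (E + 1) with hxdef
    obtain ⟨φ, ⟨hφ, hφB⟩, hu⟩ := hB (u, v, x)
    obtain ⟨e', f, hf, r, hr, rfl⟩ := mem_mergeTile.1 hφ
    have heq : e' = e ∧ r = 0 := by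
      have hd := hBc _ hφB
      simp only [cellPoint, Prod.snd_sub, hxdef] at hd
      have := (split (K := E + 1) ((e.val : ℤ) * len (E + 1))).unique
        (y₁ := (e', r)) (y₂ := (e, 0)) ⟨hr, dvd_congr (dvd_add hd
          (dvd_mul_right (per (E + 1)) ((f.2.2.val : ℤ) - k))) (by ring)⟩
        ⟨InPiece.zero e, by simp⟩
      simpa using this
    obtain ⟨rfl, rfl⟩ := heq
    have hcell : ∀ g : G2 (T * C), (u, v, x) - cellPoint e' g 0
        = (u - g.1, v - g.2.1, o 0 0 + per (E + 1) * (k - (g.2.2.val : ℤ))) := by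
      intro g
      simp only [cellPoint, hxdef, Prod.mk_sub_mk, Prod.mk.injEq, true_and]
      ring
    refine ⟨f, ⟨hf, by rw [hcell] at hφB; exact hφB⟩, ?_⟩
    rintro g ⟨hg, hgP⟩
    have := hu (cellPoint e' g 0)
      ⟨mem_mergeTile.2 ⟨e', g, hg, 0, hr, rfl⟩, by rw [hcell]; exact hgP⟩
    exact (cellPoint_injective hr hr this).2.1
  -- the column pieces force the period `T * C` on every line
  have hper : ∀ u v k, P u v (k + (T * C : ℕ)) ↔ P u v k := by
    intro u v k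
    have hwin : ∀ k, ∃! j, j < C ∧ P u v (k - (T * j : ℕ)) := by
      intro k
      have hval : ∀ j < C, ((T * j : ℕ) : ZMod (T * C)).val = T * j := fun j hj =>
        ZMod.val_natCast_of_lt (Nat.mul_lt_mul_of_pos_left hj (NeZero.pos T))
      obtain ⟨f, ⟨hf, hfP⟩, hfu⟩ := hP 0 u v k
      simp only [allEqs, Fin.cons_zero, colSet, mem_image, mem_range] at hf
      obtain ⟨j, hj, rfl⟩ := hf
      refine ⟨j, ⟨hj, ?_⟩, ?_⟩
      · simp only [sub_zero, hval j hj] at hfP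
        exact hfP
      rintro i ⟨hi, hiP⟩
      have := hfu (0, 0, ((T * i : ℕ) : ZMod (T * C)))
        ⟨by simp only [allEqs, Fin.cons_zero, colSet, mem_image, mem_range]; exact ⟨i, hi, rfl⟩,
          by simp only [sub_zero, hval i hi]; exact hiP⟩
      have h := congrArg (fun g : G2 (T * C) => g.2.2.val) this
      simp only [hval i hi, hval j hj] at h
      exact Nat.eq_of_mul_eq_mul_left (NeZero.pos T) h
    obtain ⟨c, rfl⟩ : ∃ c, C = c + 1 := ⟨C - 1, by have := NeZero.pos C; omega⟩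
    constructor
    · intro h
      obtain ⟨j, ⟨hj, hjP⟩, -⟩ := hwin (k + (T * c : ℕ))
      rcases eq_or_lt_of_le (Nat.le_of_lt_succ hj) with rfl | hlt
      · simpa using hjP
      · exfalso
        have := (hwin (k + (T * (c + 1) : ℕ))).unique (y₁ := 0) (y₂ := j + 1)
          ⟨Nat.succ_pos c, by simpa using h⟩
          ⟨by omega, by
            convert hjP using 1
            push_cast
            ring⟩
        omega
    · intro h
      obtain ⟨j, ⟨hj, hjP⟩, -⟩ := hwin (k + (T * (c + 1) : ℕ))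
      rcases Nat.eq_zero_or_pos j with rfl | hpos
      · simpa using hjP
      · exfalso
        obtain ⟨i, rfl⟩ : ∃ i, j = i + 1 := ⟨j - 1, by omega⟩
        have := (hwin (k + (T * c : ℕ))).unique (y₁ := c) (y₂ := i)
          ⟨Nat.lt_succ_self c, by simpa using h⟩
          ⟨by omega, by
            convert hjP using 1
            push_cast
            ring⟩
        omega
  have hwrap : ∀ u v (k : ℤ), P u v (((k : ZMod (T * C)).val : ℤ)) ↔ P u v k := by
    intro u v k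
    rw [ZMod.val_intCast]
    have hmul : ∀ q : ℤ, ∀ m, P u v (m + (T * C : ℕ) * q) ↔ P u v m := by
      intro q
      induction q using Int.induction_on with
      | zero => simp
      | succ i ih =>
        intro m
        rw [← ih m, ← hper u v (m + (T * C : ℕ) * (i : ℤ))]
        ring_nf
      | pred i ih =>
        intro m
        rw [← ih m, ← hper u v (m + (T * C : ℕ) * (-(i : ℤ) - 1))]
        ring_nf
    conv_rhs => rw [← Int.emod_add_mul_ediv k (T * C : ℕ)]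
    rw [hmul]
  refine ⟨{a | P a.1 a.2.1 (a.2.2.val : ℤ)}, fun e g => ?_, fun u v h a => ?_⟩
  · obtain ⟨f, ⟨hf, hfP⟩, hfu⟩ := hP e g.1 g.2.1 (g.2.2.val : ℤ)
    have hiff : ∀ f : G2 (T * C), g - f ∈ {a : G2 (T * C) | P a.1 a.2.1 (a.2.2.val : ℤ)} ↔
        P (g.1 - f.1) (g.2.1 - f.2.1) ((g.2.2.val : ℤ) - f.2.2.val) := fun f => by
      rw [Set.mem_ofPred_eq, ← hwrap _ _ ((g.2.2.val : ℤ) - f.2.2.val)]
      simp
    exact ⟨f, ⟨hf, (hiff f).2 hfP⟩, fun f' hf' => hfu f' ⟨hf'.1, (hiff f').1 hf'.2⟩⟩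
  · simp only [Set.mem_ofPred_eq, Prod.fst_add, Prod.snd_add, add_zero, P]
    have := h (a.1, a.2.1, o 0 0 + per (E + 1) * (a.2.2.val : ℤ))
    simpa using this

/-- The coordinates of a point of `ℤ³`. -/
def toPt : ℤ × ℤ × ℤ ≃+ (Fin 3 → ℤ) where
  toFun p := ![p.1, p.2.1, p.2.2]
  invFun x := (x 0, x 1, x 2)
  left_inv p := by simp
  right_inv x := by funext i; fin_cases i <;> simp
  map_add' p q := by funext i; fin_cases i <;> simp

/-- A solvable system without planar-periodic solutions gives a tile of `ℤ³` that tiles and has no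
periodic tiling. -/
theorem merge (F : Fin E → Finset (G2 (T * C)))
    (hx : ∃ e, ∃ f ∈ F e, f.1 = 1 ∧ f.2.1 = 0) (hy : ∃ e, ∃ f ∈ F e, f.1 = 0 ∧ f.2.1 = 1)
    (hex : ∃ A, TileBy A (colSet T C) ∧ ∀ e, TileBy A (F e))
    (hnp : ∀ A, TileBy A (colSet T C) → (∀ e, TileBy A (F e)) → ∀ N : ℕ, 0 < N →
      ¬ ((∀ a, a + ((N : ℤ), (0 : ℤ), (0 : ZMod (T * C))) ∈ A ↔ a ∈ A) ∧
        ∀ a, a + ((0 : ℤ), (N : ℤ), (0 : ZMod (T * C))) ∈ A ↔ a ∈ A)) :
    ∃ G : Finset (Fin 3 → ℤ), G.Nonempty ∧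
      (∃ B : Set (Fin 3 → ℤ), ∀ g, ∃! p : (Fin 3 → ℤ) × (Fin 3 → ℤ),
        p.1 ∈ B ∧ p.2 ∈ G ∧ p.1 + p.2 = g) ∧
      ∀ B : Set (Fin 3 → ℤ), (∀ g, ∃! p : (Fin 3 → ℤ) × (Fin 3 → ℤ),
        p.1 ∈ B ∧ p.2 ∈ G ∧ p.1 + p.2 = g) →
        ∀ H : AddSubgroup (Fin 3 → ℤ), H.FiniteIndex → ¬ ∀ h ∈ H, ∀ a, a + h ∈ B ↔ a ∈ B := by
  classical
  obtain ⟨A, hA0, hA⟩ := hex
  refine ⟨(mergeTile F).image toPt, ?_, ?_, fun B hB H hH hper => ?_⟩
  · exact Nonempty.image ⟨cellPoint 0 (0, 0, 0) 0, mem_mergeTile.2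
      ⟨0, _, by simp only [allEqs, Fin.cons_zero, colSet, mem_image, mem_range]
                exact ⟨0, NeZero.pos C, by simp⟩, 0, InPiece.zero 0, rfl⟩⟩ _
  · have hall : ∀ e, TileBy A (allEqs F e) := Fin.cases hA0 hA
    refine ⟨toPt.symm ⁻¹' {b | ∃ k : ℤ, b.2.2 = per (E + 1) * k ∧
      ((b.1, b.2.1, (k : ZMod (T * C))) : G2 (T * C)) ∈ A}, fun g => ?_⟩
    obtain ⟨φ, ⟨hφ, hb⟩, hu⟩ := mergeTile_tiles F hall (toPt.symm g)
    refine ⟨(g - toPt φ, toPt φ), ⟨?_, mem_image_of_mem _ hφ, sub_add_cancel _ _⟩, ?_⟩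
    · rw [Set.mem_preimage, map_sub, AddEquiv.symm_apply_apply]
      exact hb
    rintro ⟨b, x⟩ ⟨hb', hx', hsum⟩
    obtain ⟨ψ, hψ, rfl⟩ := mem_image.1 hx'
    dsimp only at hsum hb'
    obtain rfl : b = g - toPt ψ := eq_sub_of_add_eq hsum
    rw [Set.mem_preimage, map_sub, AddEquiv.symm_apply_apply] at hb'
    rw [hu ψ ⟨hψ, hb'⟩]
  · have hB' : TileBy (toPt ⁻¹' B) (mergeTile F) := fun g => by
      obtain ⟨⟨b, x⟩, ⟨hb, hx', hsum⟩, hu⟩ := hB (toPt g)
      obtain ⟨φ, hφ, rfl⟩ := mem_image.1 hx'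
      dsimp only at hsum hb
      refine ⟨φ, ⟨hφ, ?_⟩, fun ψ hψ => ?_⟩
      · rw [Set.mem_preimage, map_sub, ← eq_sub_of_add_eq hsum]
        exact hb
      · have := hu (toPt (g - ψ), toPt ψ) ⟨hψ.2, mem_image_of_mem _ hψ.1, by simp⟩
        exact toPt.injective (congrArg Prod.snd this)
    obtain ⟨A', hA', hplanar⟩ := of_mergeTile F hx hy hB'
    have hplane : ∀ u v : ℤ, ∀ a, a + ((H.index : ℤ) * u, (H.index : ℤ) * v, (0 : ZMod (T * C)))
        ∈ A' ↔ a ∈ A' := fun u v => hplanar _ _ fun b => by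
      have hmem : H.index • toPt (u, v, 0) ∈ H := H.nsmul_index_mem _
      have h := hper _ hmem (toPt b)
      rw [← map_nsmul, ← map_add] at h
      simpa [Set.mem_preimage] using h
    refine hnp A' (hA' 0) (fun e => by simpa [allEqs] using hA' e.succ) H.index
      (Nat.pos_of_ne_zero hH.index_ne_zero) ⟨?_, ?_⟩
    · simpa using hplane 1 0
    · simpa using hplane 0 1

end

end Vale.Agent.P043.Z3
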