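import Vale.Agent.P043.Z3.Basic
import Vale.Agent.P043.Z3.Section
import Vale.Agent.P043.Z3.Merge

/-! Merging finitely many equations on `ℤ² × ZMod Λ` into one tile of `ℤ^d`, `d ≥ 3`. -/

namespace Vale.Agent.P043.Z3

open Finset

/-- A counterexample in dimension three gives one in every larger dimension. -/
theorem counterexample_mono (h : Counterexample 3) : ∀ d, 3 ≤ d → Counterexample d := by
  classical
  intro d hd
  obtain ⟨F, hne, ⟨A, hA⟩, hno⟩ := h
  obtain ⟨k, rfl⟩ : ∃ k, d = 3 + k := ⟨d - 3, by omega⟩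
  let fst : (Fin (3 + k) → ℤ) → (Fin 3 → ℤ) := fun x i => x (Fin.castAdd k i)
  let snd : (Fin (3 + k) → ℤ) → (Fin k → ℤ) := fun x i => x (Fin.natAdd 3 i)
  let mk : (Fin 3 → ℤ) → (Fin k → ℤ) → (Fin (3 + k) → ℤ) := fun p q => Fin.append p q
  have hext : ∀ x y, fst x = fst y → snd x = snd y → x = y := fun x y h1 h2 => by
    funext i
    refine Fin.addCases (fun i => ?_) (fun i => ?_) i
    · exact congrFun h1 i
    · exact congrFun h2 i
  have hfst : ∀ p q, fst (mk p q) = p := fun p q => funext fun i => Fin.append_left p q i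
  have hsnd : ∀ p q, snd (mk p q) = q := fun p q => funext fun i => Fin.append_right p q i
  have hfa : ∀ x y, fst (x + y) = fst x + fst y := fun x y => rfl
  have hsa : ∀ x y, snd (x + y) = snd x + snd y := fun x y => rfl
  refine ⟨F.image fun p => mk p 0, hne.image _, ⟨fst ⁻¹' A, fun g => ?_⟩, fun B hB H hH hper => ?_⟩
  · obtain ⟨⟨a, f⟩, ⟨ha, hf, haf⟩, hu⟩ := hA (fst g)
    dsimp only at ha hf haf
    refine ⟨(mk a (snd g), mk f 0), ⟨?_, mem_image_of_mem _ hf, hext _ _ ?_ ?_⟩, ?_⟩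
    · simpa [hfst] using ha
    · rw [hfa, hfst, hfst, haf]
    · rw [hsa, hsnd, hsnd, add_zero]
    rintro ⟨b, x⟩ ⟨hb, hx, hbx⟩
    dsimp only at hb hx hbx
    obtain ⟨f', hf', rfl⟩ := mem_image.1 hx
    have h1 := hu (fst b, f') ⟨hb, hf', by rw [← hbx, hfa, hfst]⟩
    simp only [Prod.mk.injEq] at h1
    obtain ⟨h1, rfl⟩ := h1
    refine Prod.ext (hext _ _ (by rw [hfst, h1]) ?_) rfl
    rw [hsnd, ← hbx, hsa, hsnd, add_zero]
  · let N := H.index
    have htile : ∀ g, ∃! p : (Fin 3 → ℤ) × (Fin 3 → ℤ),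
        p.1 ∈ {a | mk a 0 ∈ B} ∧ p.2 ∈ F ∧ p.1 + p.2 = g := fun g => by
      obtain ⟨⟨b, x⟩, ⟨hb, hx, hbx⟩, hu⟩ := hB (mk g 0)
      dsimp only at hb hx hbx
      obtain ⟨f, hf, rfl⟩ := mem_image.1 hx
      have hb' : b = mk (fst b) 0 := hext _ _ (hfst _ _).symm (by
        have := congrArg snd hbx
        rw [hsa, hsnd, hsnd, add_zero] at this
        rw [hsnd, this])
      refine ⟨(fst b, f), ⟨by rw [Set.mem_ofPred_eq, ← hb']; exact hb, hf,
        by rw [← hfst f 0, ← hfa, hbx, hfst]⟩, ?_⟩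
      rintro ⟨a, f'⟩ ⟨ha, hf', haf⟩
      dsimp only at ha hf' haf
      have h1 := hu (mk a 0, mk f' 0) ⟨ha, mem_image_of_mem _ hf',
        hext _ _ (by rw [hfa, hfst, hfst, hfst, haf]) (by rw [hsa, hsnd, hsnd, hsnd, add_zero])⟩
      have h2 := congrArg (fun p : (Fin (3 + k) → ℤ) × (Fin (3 + k) → ℤ) => (fst p.1, fst p.2)) h1
      simpa [hfst] using h2
    let f : (Fin 3 → ℤ) →+ (Fin (3 + k) → ℤ) :=
      { toFun := fun a => mk a 0
        map_zero' := hext _ _ (hfst _ _) (hsnd _ _)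
        map_add' := fun a b => hext _ _ (by rw [hfa, hfst, hfst, hfst])
          (by rw [hsa, hsnd, hsnd, hsnd, add_zero]) }
    have hfin : (H.comap f).FiniteIndex := ⟨fun h0 => by
      have h2 := AddSubgroup.index_comap H f
      rw [h0] at h2
      exact hH.index_ne_zero (Nat.eq_zero_of_zero_dvd (h2 ▸ AddSubgroup.relIndex_dvd_index_of_normal
        H f.range))⟩
    refine hno _ htile (H.comap f) hfin fun h hh a => ?_
    show mk (a + h) 0 ∈ B ↔ mk a 0 ∈ B
    have := hper (f h) hh (mk a 0)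
    rwa [show mk a 0 + f h = mk (a + h) 0 from (map_add f a h).symm] at this

/-- The family of an equation as a finite set in the concrete group. -/
theorem tileBy_image {G : Type} [AddCommGroup G] {n : ℕ} (Φ : Pl × G ≃+ G2 n) {J : Type}
    [Fintype J] [DecidableEq (G2 n)] {f : J → Pl × G} (hf : Function.Injective f) {A : Set (G2 n)} :
    TileBy A (univ.image fun j => Φ (f j)) ↔ FamTiles (Φ ⁻¹' A) f := by
  rw [famTiles_iff]
  constructor
  · intro h g
    obtain ⟨x, ⟨hx, hxA⟩, hu⟩ := h (Φ g)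
    obtain ⟨j, -, rfl⟩ := mem_image.1 hx
    refine ⟨j, by simpa [Set.mem_preimage, map_sub] using hxA, fun i hi => hf (Φ.injective ?_)⟩
    exact hu _ ⟨mem_image_of_mem _ (mem_univ i), by simpa [Set.mem_preimage, map_sub] using hi⟩
  · intro h g
    obtain ⟨j, hj, hu⟩ := h (Φ.symm g)
    refine ⟨Φ (f j), ⟨mem_image_of_mem _ (mem_univ j), by
      simpa [Set.mem_preimage, map_sub] using hj⟩, ?_⟩
    rintro x ⟨hx, hxA⟩
    obtain ⟨i, -, rfl⟩ := mem_image.1 hx
    rw [hu i (by simpa [Set.mem_preimage, map_sub] using hxA)]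

theorem injective_of_famTiles {H ι : Type*} [AddCommGroup H] {A : Set H} {f : ι → H}
    (hA : FamTiles A f) : Function.Injective f := fun i j hij => by
  obtain ⟨⟨⟨a, ha⟩, l⟩, -, -⟩ := hA 0
  obtain ⟨k, -, hu⟩ := famTiles_iff.1 hA (a + f i)
  rw [hu i (by simpa using ha), hu j (by rw [hij]; simpa using ha)]

theorem merge_abstract {G : Type} [AddCommGroup G] {Λ : ℕ} [NeZero Λ] (φ : G ≃+ ZMod Λ)
    (C : AddSubgroup G) {ι : Type} [Finite ι] {J : ι → Type} [∀ e, Finite (J e)]
    (f : ∀ e, J e → Pl × G)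
    (hx : ∃ e j, (f e j).1 = (1, 0)) (hy : ∃ e j, (f e j).1 = (0, 1))
    (hsol : ∃ A : Set (Pl × G), FamTiles A (colFam C) ∧ ∀ e, FamTiles A (f e))
    (hno : ∀ A : Set (Pl × G), FamTiles A (colFam C) → (∀ e, FamTiles A (f e)) →
      ∀ P : ℕ, 0 < P → ¬ PlPeriodic A P) :
    ∀ d, 3 ≤ d → Counterexample d := by
  classical
  refine counterexample_mono ?_
  have : Finite G := Finite.of_equiv _ φ.symm.toEquiv
  have := Fintype.ofFinite ι
  have : ∀ e, Fintype (J e) := fun e => Fintype.ofFinite _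
  have : Fintype C := Fintype.ofFinite _
  obtain ⟨T, hT⟩ : Fintype.card C ∣ Λ := by
    have := C.card_addSubgroup_dvd_card
    rwa [Nat.card_congr φ.toEquiv, Nat.card_zmod, Nat.card_eq_fintype_card] at this
  rw [mul_comm] at hT
  subst hT
  have : NeZero (Fintype.card C) := ⟨Fintype.card_ne_zero⟩
  have : NeZero T := ⟨fun h => NeZero.ne (T * Fintype.card C) (by rw [h, zero_mul])⟩
  let Φ : Pl × G ≃+ G2 (T * Fintype.card C) :=
    { toFun := fun p => (p.1.1, p.1.2, φ p.2)
      invFun := fun q => ((q.1, q.2.1), φ.symm q.2.2)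
      left_inv := fun p => by simp
      right_inv := fun q => by simp
      map_add' := fun p q => by simp }
  have hcolinj : Function.Injective (colFam C) := fun a b h => Subtype.ext (congrArg Prod.snd h)
  have hcol : colSet T (Fintype.card C) = univ.image fun z => Φ (colFam C z) := by
    refine (eq_of_subset_of_card_le (fun x hx => ?_) ?_).symm
    · obtain ⟨z, -, rfl⟩ := mem_image.1 hx
      have h0 : ((Fintype.card C : ℕ) : ZMod (T * Fintype.card C)) * φ (z : G) = 0 := by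
        rw [← nsmul_eq_mul, ← map_nsmul, ← AddSubgroup.coe_nsmul]
        simp [card_nsmul_eq_zero]
      rw [← ZMod.natCast_zmod_val (φ (z : G)), ← Nat.cast_mul, ZMod.natCast_eq_zero_iff,
        mul_comm (Fintype.card C) (φ (z : G)).val] at h0
      obtain ⟨j, hj⟩ := (Nat.mul_dvd_mul_iff_right (NeZero.pos (Fintype.card C))).1 h0
      have hlt := (φ (z : G)).val_lt
      rw [hj] at hlt
      refine mem_image.2 ⟨j, mem_range.2 (Nat.lt_of_mul_lt_mul_left hlt), ?_⟩
      rw [← hj, ZMod.natCast_zmod_val]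
      rfl
    · rw [card_image_of_injective univ (f := fun z => Φ (colFam C z)) (Φ.injective.comp hcolinj),
        card_univ]
      exact card_image_le.trans (card_range _).le
  obtain ⟨A, hA0, hA⟩ := hsol
  have hinj : ∀ e, Function.Injective (f e) := fun e => injective_of_famTiles (hA e)
  let F : Fin (Fintype.card ι) → Finset (G2 (T * Fintype.card C)) := fun i =>
    univ.image fun j => Φ (f ((Fintype.equivFin ι).symm i) j)
  have hmem : ∀ i j, Φ (f ((Fintype.equivFin ι).symm i) j) ∈ F i := fun i j =>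
    mem_image_of_mem (fun j => Φ (f ((Fintype.equivFin ι).symm i) j)) (mem_univ j)
  refine merge F ?_ ?_ ⟨Φ '' A, ?_, fun i => ?_⟩ fun B hB0 hB P hP hper => ?_
  · obtain ⟨e, j, he⟩ := hx
    obtain ⟨i, rfl⟩ := (Fintype.equivFin ι).symm.surjective e
    exact ⟨_, _, hmem i j, congrArg Prod.fst he, congrArg Prod.snd he⟩
  · obtain ⟨e, j, he⟩ := hy
    obtain ⟨i, rfl⟩ := (Fintype.equivFin ι).symm.surjective e
    exact ⟨_, _, hmem i j, congrArg Prod.fst he, congrArg Prod.snd he⟩
  · rw [hcol, tileBy_image Φ hcolinj, Set.preimage_image_eq _ Φ.injective]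
    exact hA0
  · rw [tileBy_image Φ (hinj _), Set.preimage_image_eq _ Φ.injective]
    exact hA _
  · rw [hcol, tileBy_image Φ hcolinj] at hB0
    refine hno _ hB0 (fun e => ?_) P hP fun a => ⟨?_, ?_⟩
    · obtain ⟨i, rfl⟩ := (Fintype.equivFin ι).symm.surjective e
      exact (tileBy_image Φ (hinj _)).1 (hB i)
    · rw [Set.mem_preimage, Set.mem_preimage, map_add]
      simpa [Φ] using hper.1 (Φ a)
    · rw [Set.mem_preimage, Set.mem_preimage, map_add]
      simpa [Φ] using hper.2 (Φ a)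

end Vale.Agent.P043.Z3
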