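import Vale.Agent.P043.Z3.NoPeriod
import Vale.Agent.P043.Z3.Canonical
import Vale.Agent.P043.Z3.MergeAbstract
import Vale.Agent.P043.Euclid.Lift

/-! The periodic tiling conjecture fails in every dimension at least three. -/

namespace Vale.Agent.P043.Z3

open MeasureTheory

theorem offset_mem (x : Bool × Idx) :
    ∃ k, ((eqs (.inr (.inl x))).fam k).1 = dY x.2 := by
  obtain ⟨k, hk⟩ := cls_offset (U := Unit) (cs := fun _ => (.inl x : Comp))
    (hcs := fun _ _ _ => rfl) (δ := (dY x.2, 0))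
  exact ⟨k, hk⟩

theorem discrete_counterexample : ∀ d, 3 ≤ d → Counterexample d := by
  haveI : ∀ e : EqIdx, Finite ((eqs e).ι × ((eqs e).K ⊓ pr.ker : AddSubgroup GG)) := fun e =>
    have : Fintype (eqs e).ι := (eqs e).fin
    inferInstance
  refine merge_abstract cyclicEquiv pr.ker (fun e => (eqs e).fam) ?_ ?_ exists_solution no_periodic
  · obtain ⟨k, hk⟩ := offset_mem (false, i10)
    exact ⟨_, k, by rw [hk]; simp [dY, i10]⟩
  · obtain ⟨k, hk⟩ := offset_mem (false, (true, 0))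
    exact ⟨_, k, by rw [hk]; simp [dY]⟩

theorem euclidean_counterexample (d : ℕ) (hd : 3 ≤ d) :
    ∃ Ω : Set (Fin d → ℝ), MeasurableSet Ω ∧ Bornology.IsBounded Ω ∧ 0 < volume Ω ∧
      (∃ A : Set (Fin d → ℝ), (∀ᵐ x, ∃ a ∈ A, x - a ∈ Ω) ∧
        ∀ a ∈ A, ∀ b ∈ A, a ≠ b → volume {x : Fin d → ℝ | x - a ∈ Ω ∧ x - b ∈ Ω} = 0) ∧
      ∀ A : Set (Fin d → ℝ), (∀ᵐ x, ∃ a ∈ A, x - a ∈ Ω) →
        (∀ a ∈ A, ∀ b ∈ A, a ≠ b → volume {x : Fin d → ℝ | x - a ∈ Ω ∧ x - b ∈ Ω} = 0) →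
        ¬ ∃ v : Fin d → (Fin d → ℝ), LinearIndependent ℝ v ∧ ∀ j x, x + v j ∈ A ↔ x ∈ A := by
  obtain ⟨F, -, htile, hno⟩ := discrete_counterexample d hd
  refine Euclid.euclid_lift (by omega) htile fun A N hA hN hper => ?_
  haveI : NeZero N := ⟨hN.ne'⟩
  let c : (Fin d → ℤ) →+ (Fin d → ZMod N) :=
    AddMonoidHom.compLeft (Int.castAddHom (ZMod N)) (Fin d)
  refine hno A hA c.ker inferInstance fun h hh a => ?_
  have hdvd : ∀ i, (N : ℤ) ∣ h i := fun i =>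
    (ZMod.intCast_zmod_eq_zero_iff_dvd _ _).1 (congrFun (AddMonoidHom.mem_ker.1 hh) i)
  choose v hv using hdvd
  have hh' : h = N • v := funext fun i => by rw [hv i]; simp
  rw [hh']
  exact hper v a

end Vale.Agent.P043.Z3
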