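import Vale.Agent.P043.Z3.Window

/-! Every solution of a window equation satisfies the four corners identity. -/

namespace Vale.Agent.P043.Z3

open Finset

variable {G T R D : Type} [AddCommGroup G] [AddCommGroup T] [AddCommGroup R]
  {π : G →+ T} {h P Q : ℕ} [NeZero h] [NeZero P] [NeZero Q] [Fintype D]

theorem winVal_sum {P Q : ℕ} [NeZero P] [NeZero Q] (u : ZMod P × ZMod Q) :
    ∑ κ : ZMod P × ZMod Q, (if winVal κ = u then (1 : ℤ) else 0) =
      1 + (if (0 : ZMod P × ZMod Q) = u then 1 else 0)
        - (if ((1 : ZMod P), (0 : ZMod Q)) = u then 1 else 0)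
        - (if ((0 : ZMod P), (1 : ZMod Q)) = u then 1 else 0)
        + (if ((1 : ZMod P), (1 : ZMod Q)) = u then 1 else 0) := by
  classical
  let δ : ZMod P × ZMod Q → ℤ := fun v => if v = u then 1 else 0
  have hsplit : ∀ κ : ZMod P × ZMod Q, δ (winVal κ) = δ κ +
      (if κ.2 = 0 then δ (κ + (1, 0)) - δ κ else 0) +
      (if κ.1 = 0 then δ (κ + (0, 1)) - δ κ else 0) +
      (if κ = 0 then δ (κ + (1, 1)) - δ (κ + (1, 0)) - δ (κ + (0, 1)) + δ κ else 0) := by
    rintro ⟨x, y⟩
    by_cases hx : x = 0 <;> by_cases hy : y = 0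
    · subst hx hy
      simp only [winVal, if_pos, Prod.mk_zero_zero]
      simp only [zero_add]
      ring
    · subst hx
      simp [winVal, hy]
    · subst hy
      simp [winVal, hx]
    · simp [winVal, hx, hy]
  have hshift : ∀ e : ZMod P × ZMod Q, ∑ κ, δ (κ + e) = 1 := fun e => by
    exact (Fintype.sum_equiv (Equiv.addRight e) _ δ fun _ => rfl).trans (by simp [δ])
  have hrow : ∑ κ : ZMod P × ZMod Q, (if κ.2 = 0 then δ (κ + (1, 0)) - δ κ else 0) = 0 := by
    rw [← sum_filter, sum_sub_distrib, sub_eq_zero]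
    refine sum_equiv (Equiv.addRight (((1 : ZMod P), (0 : ZMod Q)))) (fun κ => ?_) (fun κ _ => rfl)
    simp
  have hcol : ∑ κ : ZMod P × ZMod Q, (if κ.1 = 0 then δ (κ + (0, 1)) - δ κ else 0) = 0 := by
    rw [← sum_filter, sum_sub_distrib, sub_eq_zero]
    refine sum_equiv (Equiv.addRight (((0 : ZMod P), (1 : ZMod Q)))) (fun κ => ?_) (fun κ _ => rfl)
    simp
  have h0 : ∑ κ, δ κ = 1 := by simpa using hshift 0
  change ∑ κ, δ (winVal κ) = _
  rw [sum_congr rfl fun κ _ => hsplit κ, sum_add_distrib, sum_add_distrib, sum_add_distrib, h0,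
    hrow, hcol, sum_ite_eq' univ (0 : ZMod P × ZMod Q), if_pos (mem_univ _)]
  simp only [δ, zero_add, add_zero]
  ring

namespace WinData

omit [NeZero h] [NeZero P] [NeZero Q] [Fintype D] in
theorem per_int (W : WinData π R D h P Q) {α : Pl → T → G}
    (hper : ∀ n t, W.val (α (n + (h : ℤ) • W.d) (t + (h : ℤ) • W.st)) = W.val (α n t)) :
    ∀ (z : ℤ) n t, W.val (α (n + (z * h) • W.d) (t + (z * h) • W.st)) = W.val (α n t) := by
  intro z
  induction z using Int.induction_on with
  | zero => intro n t; simp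
  | succ i hi =>
    intro n t
    rw [← hi n t, ← hper (n + ((i : ℤ) * h) • W.d) (t + ((i : ℤ) * h) • W.st)]
    simp only [add_mul, one_mul, add_smul, add_assoc]
  | pred i hi =>
    intro n t
    rw [← hper (n + ((-(i : ℤ) - 1) * h) • W.d) (t + ((-(i : ℤ) - 1) * h) • W.st)]
    rw [← hi n t]
    congr 2 <;> rw [add_assoc, ← add_smul] <;> congr 2 <;> ring

theorem sound [Finite G] [Nonempty D] (W : WinData π R D h P Q) {α : Pl → T → G}
    (hdv : ∀ k n t, W.val (α (n + W.dv k) t) = W.val (α n t))
    (hper : ∀ n t, W.val (α (n + (h : ℤ) • W.d) (t + (h : ℤ) • W.st)) = W.val (α n t))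
    (hα : IsSection π α) (H : W.eqn.Holds α) (n : Pl) (t : T) :
    Rect (W.count α n t) := by
  classical
  have : Fintype G := Fintype.ofFinite G
  -- the value read by each position
  set x : ZMod h → ZMod P × ZMod Q := fun i =>
    W.val (α (n - (i.val : ℤ) • W.d) (t - (i.val : ℤ) • W.st)) with hx
  -- the particular target of each piece
  let gk : (ZMod h × (ZMod P × ZMod Q)) × D → G := fun k =>
    α (n - (W.m k.1 • W.d + W.dv k.2)) (t - W.m k.1 • W.st) +
      Classical.choose (W.lift (W.m k.1) (winVal k.1.2))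
  have hc : ∀ p : ZMod h × (ZMod P × ZMod Q),
      π (Classical.choose (W.lift (W.m p) (winVal p.2))) = W.m p • W.st ∧
      W.val (Classical.choose (W.lift (W.m p) (winVal p.2))) = winVal p.2 ∧
      W.reg (Classical.choose (W.lift (W.m p) (winVal p.2))) = W.m p • W.r1 :=
    fun p => Classical.choose_spec (W.lift (W.m p) (winVal p.2))
  have hgπ : ∀ k, π (gk k) = t := fun k => by
    simp only [gk, map_add, hα _ _, (hc k.1).1, sub_add_cancel]
  have hmh : ∀ p : ZMod h × (ZMod P × ZMod Q), ∃ z : ℤ, W.m p = (p.1.val : ℤ) + z * h := by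
    intro p
    have h1 : ((W.m p : ℤ) : ZMod h) = ((p.1.val : ℤ) : ZMod h) := by
      simp only [WinData.m, Int.cast_add, Int.cast_mul, W.ha.1, W.hb.1, W.hc.1]
      ring
    rw [ZMod.intCast_eq_intCast_iff_dvd_sub] at h1
    obtain ⟨z, hz⟩ := h1
    exact ⟨-z, by linarith⟩
  have hgval : ∀ k, W.val (gk k) = x k.1.1 + winVal k.1.2 := fun k => by
    obtain ⟨z, hz⟩ := hmh k.1
    simp only [gk, map_add, (hc k.1).2.1, hx]
    congr 1
    rw [← hdv k.2, ← per_int W hper z (n - (W.m k.1 • W.d + W.dv k.2) + W.dv k.2)]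
    congr 2 <;> rw [hz, add_smul] <;> abel
  set S : AddSubgroup G := π.ker ⊓ (W.val.ker ⊓ W.reg.ker)
  have hcond : ∀ g (k : (ZMod h × (ZMod P × ZMod Q)) × D), (π g = t ∧ g - α (n - W.eqn.v k) (π g - π (W.eqn.c k)) - W.eqn.c k ∈ W.eqn.K)
      ↔ g - gk k ∈ S := by
    intro g k
    have hπc : π (W.eqn.c k) = W.m k.1 • W.st := (hc k.1).1
    constructor
    · rintro ⟨hg, hK⟩
      rw [hπc, hg] at hK
      refine AddSubgroup.mem_inf.2 ⟨?_, ?_⟩
      · rw [AddMonoidHom.mem_ker, map_sub, hg, hgπ, sub_self]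
      · have e : g - gk k = g - α (n - W.eqn.v k) (t - W.m k.1 • W.st) - W.eqn.c k :=
          sub_add_eq_sub_sub _ _ _
        rw [e]
        exact hK
    · intro hS
      obtain ⟨h1, h2⟩ := AddSubgroup.mem_inf.1 hS
      rw [AddMonoidHom.mem_ker, map_sub, hgπ, sub_eq_zero] at h1
      refine ⟨h1, ?_⟩
      rw [hπc, h1]
      have e : g - gk k = g - α (n - W.eqn.v k) (t - W.m k.1 • W.st) - W.eqn.c k :=
        sub_add_eq_sub_sub _ _ _
      rw [← e]
      exact h2
  -- count the targets with a given value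
  have htot : ∀ v, #{g : G | π g = t ∧ W.val g = v} =
      #{g : G | g ∈ S} * #{k : (ZMod h × (ZMod P × ZMod Q)) × D | x k.1.1 + winVal k.1.2 = v} := by
    intro v
    rw [mul_comm]
    calc #{g : G | π g = t ∧ W.val g = v}
        = ∑ k : (ZMod h × (ZMod P × ZMod Q)) × D,
            #{g : G | (π g = t ∧ W.val g = v) ∧ g - gk k ∈ S} := by
          rw [← card_biUnion]
          · congr 1
            ext g
            simp only [mem_biUnion, mem_univ, true_and, mem_filter]
            constructor
            · intro hg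
              obtain ⟨k, hk, -⟩ := H n g
              exact ⟨k, hg, (hcond g k).1 ⟨hg.1, hk⟩⟩
            · rintro ⟨k, hg, -⟩
              exact hg
          · intro a _ b _ hab
            rw [Function.onFun, Finset.disjoint_left]
            intro g ha hb
            simp only [mem_filter, mem_univ, true_and] at ha hb
            obtain ⟨k, -, huniq⟩ := H n g
            exact hab ((huniq a ((hcond g a).2 ha.2).2).trans (huniq b ((hcond g b).2 hb.2).2).symm)
      _ = ∑ k : (ZMod h × (ZMod P × ZMod Q)) × D,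
            if x k.1.1 + winVal k.1.2 = v then #{g : G | g ∈ S} else 0 := by
          refine sum_congr rfl fun k _ => ?_
          split_ifs with hv
          · refine card_equiv (Equiv.subRight (gk k)) fun g => ?_
            simp only [mem_filter, mem_univ, true_and, Equiv.subRight_apply]
            refine ⟨fun hh => hh.2, fun hS => ⟨?_, hS⟩⟩
            obtain ⟨h1, h2, -⟩ := (by
              simpa [S, AddSubgroup.mem_inf, AddMonoidHom.mem_ker, sub_eq_zero] using hS :
                π g = π (gk k) ∧ W.val g = W.val (gk k) ∧ W.reg g = W.reg (gk k))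
            exact ⟨h1.trans (hgπ k), h2.trans ((hgval k).trans hv)⟩
          · rw [card_eq_zero, filter_eq_empty_iff]
            rintro g - ⟨⟨-, hg⟩, hS⟩
            obtain ⟨-, h2, -⟩ := (by
              simpa [S, AddSubgroup.mem_inf, AddMonoidHom.mem_ker, sub_eq_zero] using hS :
                π g = π (gk k) ∧ W.val g = W.val (gk k) ∧ W.reg g = W.reg (gk k))
            rw [hgval, hg] at h2
            exact hv h2.symm
      _ = _ := by rw [← sum_filter, sum_const, smul_eq_mul]
  have hconst : ∀ v, #{g : G | π g = t ∧ W.val g = v} = #{g : G | π g = t ∧ W.val g = 0} := by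
    intro v
    obtain ⟨e, he1, he2, -⟩ := W.lift 0 v
    rw [zero_smul] at he1
    refine card_equiv (Equiv.subRight e) fun g => ?_
    simp [map_sub, he1, he2, sub_eq_zero]
  have hS0 : 0 < #{g : G | g ∈ S} := card_pos.2 ⟨0, by simp [zero_mem]⟩
  -- the piece count is constant
  set N : ZMod P × ZMod Q → ℤ := fun v => (W.count α n t v : ℤ) with hN
  set F : ZMod P × ZMod Q → ℤ := fun v => N v + N (v - (1, 1)) - N (v - (1, 0)) - N (v - (0, 1))
  have hpiece : ∀ v, (#{k : (ZMod h × (ZMod P × ZMod Q)) × D | x k.1.1 + winVal k.1.2 = v} : ℤ)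
      = Fintype.card D * ((h : ℤ) + F v) := by
    intro v
    rw [card_filter]
    push_cast
    have e : ∀ φ : ZMod h × (ZMod P × ZMod Q) → ℤ,
        ∑ k : (ZMod h × (ZMod P × ZMod Q)) × D, φ k.1 =
          Fintype.card D * ∑ i, ∑ κ, φ (i, κ) := by
      intro φ
      rw [Fintype.sum_prod_type, ← Fintype.sum_prod_type' (fun i κ => φ (i, κ)), mul_sum]
      exact sum_congr rfl fun k _ => by simp
    rw [e fun k => if x k.1 + winVal k.2 = v then 1 else 0]
    congr 1
    have hi : ∀ i, ∑ κ : ZMod P × ZMod Q, (if x i + winVal κ = v then (1 : ℤ) else 0) =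
        1 + (if x i = v then 1 else 0) - (if x i = v - (1, 0) then 1 else 0)
          - (if x i = v - (0, 1) then 1 else 0) + (if x i = v - (1, 1) then 1 else 0) := by
      intro i
      have := winVal_sum (v - x i)
      simp only [eq_sub_iff_add_eq, zero_add] at this
      simp only [eq_sub_iff_add_eq]
      simp only [add_comm _ (x i)] at this
      exact this
    rw [sum_congr rfl fun i _ => hi i, sum_add_distrib, sum_sub_distrib, sum_sub_distrib,
      sum_add_distrib, sum_const, card_univ, ZMod.card, nsmul_eq_mul, mul_one]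
    simp only [F, hN, WinData.count, card_filter]
    push_cast
    ring
  have hF : ∀ v, F v = F 0 := by
    intro v
    have h1 := (htot v).symm.trans ((hconst v).trans (htot 0))
    have h2 := Nat.eq_of_mul_eq_mul_left hS0 h1
    have h3 : (Fintype.card D : ℤ) * ((h : ℤ) + F v) = Fintype.card D * ((h : ℤ) + F 0) := by
      rw [← hpiece, ← hpiece, h2]
    have h4 : (Fintype.card D : ℤ) ≠ 0 := by exact_mod_cast Fintype.card_ne_zero
    linarith [mul_left_cancel₀ h4 h3]
  have hsum : ∑ v, F v = 0 := by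
    have e : ∀ w : ZMod P × ZMod Q, ∑ v, N (v - w) = ∑ v, N v := fun w =>
      Equiv.sum_comp (Equiv.subRight w) N
    simp only [F, sum_sub_distrib, sum_add_distrib, e]
    ring
  have hF0 : F 0 = 0 := by
    rw [sum_congr rfl fun v _ => hF v, sum_const, card_univ, nsmul_eq_mul] at hsum
    exact (mul_eq_zero.1 hsum).resolve_left (by exact_mod_cast Fintype.card_ne_zero)
  intro v
  have h5 := (hF v).trans hF0
  simp only [F, hN] at h5
  omega

end WinData


/-- Fewer than `Q` points, in number not divisible by `P`, cannot satisfy the identity. -/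
theorem not_rect {P Q : ℕ} [NeZero P] [NeZero Q] {ι : Type} [Fintype ι]
    (f : ι → ZMod P × ZMod Q) (hQ : Fintype.card ι < Q) (hP : ¬ P ∣ Fintype.card ι) :
    ¬ Rect (fun v => #{i : ι | f i = v}) := by
  classical
  intro hR
  obtain ⟨b₀, hb₀⟩ : ∃ b₀, ∀ i, (f i).2 ≠ b₀ := by
    by_contra hne
    push Not at hne
    have := Fintype.card_le_of_surjective (fun i => (f i).2) hne
    rw [ZMod.card] at this
    omega
  set N : ZMod P × ZMod Q → ℕ := fun v => #{i : ι | f i = v}
  have hcol : ∀ j : ℕ, ∀ a, N (a, b₀ + j) = N (a - 1, b₀ + j) := by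
    intro j
    induction j with
    | zero =>
      intro a
      have e : ∀ c, N (c, b₀) = 0 := fun c => card_eq_zero.2 (filter_eq_empty_iff.2
        fun i _ hi => hb₀ i (by rw [hi]))
      simp [e]
    | succ j ih =>
      intro a
      have h1 := hR (a, b₀ + ((j + 1 : ℕ) : ZMod Q))
      simp only [Prod.mk_sub_mk, sub_zero, Nat.cast_succ, ← add_assoc, add_sub_cancel_right] at h1
      have h2 := ih a
      simp only [Nat.cast_succ, ← add_assoc] at h2 ⊢
      simp only [N] at h1 h2 ⊢
      omega
  have hrow : ∀ a b, N (a, b) = N (0, b) := by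
    intro a b
    have hb : b = b₀ + ((b - b₀).val : ZMod Q) := by
      rw [ZMod.natCast_zmod_val, add_sub_cancel]
    rw [hb]
    suffices ∀ c : ℕ, N ((c : ZMod P), b₀ + ((b - b₀).val : ZMod Q)) =
        N (0, b₀ + ((b - b₀).val : ZMod Q)) by
      have h := this a.val
      rwa [ZMod.natCast_zmod_val] at h
    intro c
    induction c with
    | zero => simp
    | succ c ih => rw [hcol _ ((c + 1 : ℕ) : ZMod P), Nat.cast_succ, add_sub_cancel_right, ih]
  refine hP ⟨∑ b : ZMod Q, N (0, b), ?_⟩
  have htot : Fintype.card ι = ∑ v : ZMod P × ZMod Q, N v :=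
    card_eq_sum_card_fiberwise fun i _ => mem_univ (f i)
  rw [htot, Fintype.sum_prod_type]
  simp only [hrow, sum_const, card_univ, ZMod.card, smul_eq_mul]

end Vale.Agent.P043.Z3
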