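import Vale.Agent.P043.Z3.System
import Vale.Agent.P043.Z3.Section
import Vale.Agent.P043.Z3.WindowSound

/-! The system has no periodic solution. -/

namespace Vale.Agent.P043.Z3

open Finset

/-- Some coordinate move of the symbol `g` changes component `c` at `n`. -/
def Moves (c : Comp) (g : Sym) (α : Pl → TT → GG) (n : Pl) : Prop :=
  ∃ t, X c α (n + (symMove c g).1) (t + (symMove c g).2) ≠ X c α n t

theorem sum_pair_single {S ι : Type} [AddCommGroup S] [Fintype ι] [DecidableEq ι] {M : ι → Type}
    [∀ i, AddCommGroup (M i)] (f : ∀ i, M i) : ∑ i, ((0 : S), Pi.single i (f i)) = (0, f) :=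
  Prod.ext (by rw [Prod.fst_sum]; exact sum_const_zero)
    (by rw [Prod.snd_sum]; exact univ_sum_single f)

theorem mem_of_singles {S ι : Type} [AddCommGroup S] [Fintype ι] [DecidableEq ι] {M : ι → Type}
    [∀ i, AddCommGroup (M i)] {K : AddSubgroup (S × ∀ i, M i)} {f : ∀ i, M i}
    (h : ∀ i, ((0 : S), Pi.single i (f i)) ∈ K) : ((0 : S), f) ∈ K :=
  sum_pair_single (S := S) f ▸ K.sum_mem fun i _ => h i

section Derive

variable {α : Pl → TT → GG} (hα : IsSection pr α) (H : ∀ e, (eqs e).Holds α)

theorem forced {c : Comp} {δ : Pl × TT} {hcs : Function.Injective fun _ : Unit => c}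
    (h : (cls (fun _ : Unit => c) hcs fun _ => δ).Holds α) : δ ∈ periodsOf (X c α) := fun n t => by
  obtain ⟨-, hu⟩ := cls_sound (fun u w huw => absurd (Subsingleton.elim u w) huw) h n t
  exact hu

include H in
theorem foreign_period {c c' : Comp} (h : c ≠ c') : unitMove c' ∈ periodsOf (X c α) :=
  forced (hcs := fun _ _ _ => rfl) (H (.inl ⟨(c, c'), h⟩))

include H in
theorem line_period (x : Bool × Idx) : ((dY x.2, 0) : Pl × TT) ∈ periodsOf (X (.inl x) α) :=
  forced (hcs := fun _ _ _ => rfl) (H (.inr (.inl x)))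

include H in
theorem exceptional_period (j : Bool) :
    (((1, 0), 0) : Pl × TT) ∈ periodsOf (X (Uc j) α) ∧
      (((0, 13), 0) : Pl × TT) ∈ periodsOf (X (Uc j) α) := by
  have h1 := forced (hcs := fun _ _ _ => rfl) (H (.inr (.inr (.inl (j, true)))))
  have h2 := forced (hcs := fun _ _ _ => rfl) (H (.inr (.inr (.inl (j, false)))))
  exact ⟨by simpa using h1, by simpa using h2⟩

theorem smul_stepT (c : Comp) (a : ZMod (hc c)) : a.val • stepT c = Pi.single c a := by
  funext c'
  rw [Pi.smul_apply, stepT]
  rcases eq_or_ne c' c with rfl | h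
  · simp [nsmul_one]
  · simp [Pi.single_eq_of_ne h]

include H in
theorem single_period {c c' : Comp} (h : c ≠ c') (a : ZMod (hc c')) :
    ((0, Pi.single c' a) : Pl × TT) ∈ periodsOf (X c α) := by
  have := AddSubgroup.nsmul_mem _ (foreign_period H h) a.val
  rwa [unitMove, Prod.smul_mk, smul_zero, smul_stepT] at this

include H in
theorem coord_dep {c : Comp} {t t' : TT} (h : t c = t' c) (n : Pl) :
    X c α n t = X c α n t' := by
  have hmem : ((0, t' - t) : Pl × TT) ∈ periodsOf (X c α) := by
    have hterm : ∀ c', ((0, Pi.single c' ((t' - t) c')) : Pl × TT) ∈ periodsOf (X c α) := by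
      intro c'
      rcases eq_or_ne c c' with rfl | hc'
      · rw [Pi.sub_apply, h, sub_self, Pi.single_zero]
        exact AddSubgroup.zero_mem _
      · exact single_period H hc' _
    exact mem_of_singles hterm
  have := hmem n t
  rw [add_zero, add_sub_cancel] at this
  exact this.symm

include H in
theorem symMove_period {c c' : Comp} (h : c' ≠ c) (g : Sym) :
    symMove c' g ∈ periodsOf (X c α) := single_period H h.symm _

include H in
theorem together {U : Type} [Fintype U] [Nonempty U] {cs : U → Comp}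
    {hcs : Function.Injective cs} {a : ∀ u, ZMod (hc (cs u))}
    (hcl : (cls cs hcs fun u => (0, Pi.single (cs u) (a u))).Holds α) (n : Pl) :
    ∃ u, ∀ t, X (cs u) α n (t + Pi.single (cs u) (a u)) = X (cs u) α n t := by
  classical
  by_contra hne
  push Not at hne
  choose s hs using hne
  let t : TT := ∑ u, Pi.single (cs u) (s u (cs u))
  have ht : ∀ u, t (cs u) = s u (cs u) := fun u => by
    simp only [t, Finset.sum_apply]
    rw [Finset.sum_eq_single u
      (fun u' _ hu' => Pi.single_eq_of_ne (fun h => hu' (hcs h).symm) _)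
      (fun h => absurd (mem_univ u) h), Pi.single_eq_same]
  obtain ⟨u, hu⟩ := cls_sound (δ := fun u => (0, Pi.single (cs u) (a u)))
    (fun u w huw => single_period H (hcs.ne huw.symm) _) hcl n t
  simp only [add_zero] at hu
  exact hs u (((coord_dep H (t' := t + Pi.single (cs u) (a u)) (by simp [ht u]) n).trans hu).trans
    (coord_dep H (ht u) n))

theorem moves_iff {c : Comp} {g : Sym} {n : Pl} :
    Moves c g α n ↔ ∃ t, X c α n (t + Pi.single c (unitSym c g)) ≠ X c α n t := by
  simp [Moves, symMove]

include H hα in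
theorem exists_moves (x : Bool × Idx) (n : Pl) : ∃ g, Moves (.inl x) g α n := by
  classical
  set c : Comp := .inl x
  by_contra hne
  simp only [not_exists, moves_iff, not_not] at hne
  let S : AddSubgroup (ZMod (hc c)) :=
    { carrier := {a | ∀ t, X c α n (t + Pi.single c a) = X c α n t}
      zero_mem' := fun t => by simp
      add_mem' := fun {a a'} ha ha' t => by rw [Pi.single_add, ← add_assoc, ha', ha]
      neg_mem' := fun {a} ha t => by
        have := ha (t + Pi.single c (-a))
        rw [Pi.single_neg, neg_add_cancel_right] at this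
        rw [Pi.single_neg]
        exact this.symm }
  have h1 : (1 : ZMod (hc c)) ∈ S := by
    rw [← sum_unitSym c]
    exact S.sum_mem fun g _ => hne g
  have hall : ∀ a : ZMod (hc c), a ∈ S := fun a => by
    have := S.nsmul_mem h1 a.val
    rwa [nsmul_one, ZMod.natCast_zmod_val] at this
  have hconst : ∀ t t' : TT, X c α n t = X c α n t' := fun t t' => by
    rw [← hall (t' c - t c) t]
    exact coord_dep H (by simp) n
  have hdv : ∀ k m t, (winY x).val (α (m + (winY x).dv k) t) = (winY x).val (α m t) :=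
    fun k m t => by rw [show (winY x).dv k = 0 from rfl, add_zero]
  have hper : ∀ m t, (winY x).val (α (m + (hc c : ℤ) • (winY x).d) (t + (hc c : ℤ) • (winY x).st)) =
      (winY x).val (α m t) := fun m t => by
    have hst : (hc c : ℤ) • (winY x).st = 0 := by
      show (hc c : ℤ) • stepT c = 0
      funext c'
      rw [Pi.smul_apply, stepT]
      rcases eq_or_ne c' c with rfl | h
      · simp
      · simp [Pi.single_eq_of_ne h]
    rw [hst, add_zero]
    have := AddSubgroup.zsmul_mem _ (line_period H x) (hc c : ℤ) m t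
    rwa [Prod.smul_mk, smul_zero, add_zero] at this
  have hR := WinData.sound (winY x) hdv hper hα (H (.inr (.inr (.inr (.inl (.inl x))))))
    n 0 (X c α n 0)
  have hval : ∀ i : ZMod (hc c), (winY x).val
      (α (n - (i.val : ℤ) • (winY x).d) ((0 : TT) - (i.val : ℤ) • (winY x).st)) = X c α n 0 := by
    intro i
    have := AddSubgroup.zsmul_mem _ (line_period H x) (-(i.val : ℤ)) n (0 - (i.val : ℤ) • stepT c)
    rw [Prod.smul_mk, smul_zero, add_zero, neg_smul, ← sub_eq_add_neg] at this
    exact this.trans (hconst _ _)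
  have hcount : ∀ v, (winY x).count α n 0 v = if X c α n 0 = v then hc c else 0 := by
    intro v
    unfold WinData.count
    simp only [hval]
    split_ifs with hv
    · simp [hv, ZMod.card, c]
    · simp [hv]
  have hne' : ∀ w : VV c, w ≠ 0 → X c α n 0 ≠ X c α n 0 - w := fun w hw h =>
    hw (sub_eq_self.1 h.symm)
  rw [hcount, hcount, hcount, hcount, if_pos rfl,
    if_neg (hne' (1, 1) (by simp [Prod.ext_iff])), if_neg (hne' (1, 0) (by simp [Prod.ext_iff])),
    if_neg (hne' (0, 1) (by simp [Prod.ext_iff]))] at hR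
  exact NeZero.ne (hc c) (by omega)

include H in
theorem moves_exclusive {i : Idx} {g g' : Sym} {n : Pl} (hg : Moves (Yc false i) g α n)
    (hg' : Moves (Yc true i) g' α n) : g = g' := by
  by_contra hne
  obtain ⟨b, hb⟩ := together H (cs := fun b => Yc b i) (hcs := pair_injective)
    (a := fun b => unitSym (Yc b i) (if b then g' else g))
    (H (.inr (.inr (.inr (.inr (.inl ⟨(i, g, g'), hne⟩)))))) n
  cases b
  · obtain ⟨t, ht⟩ := moves_iff.1 hg
    exact ht (hb t)
  · obtain ⟨t, ht⟩ := moves_iff.1 hg'
    exact ht (hb t)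

/-- The line functions of a solution. -/
noncomputable def lineSym (α : Pl → TT → GG) (i : Idx) (M : ℤ) : Sym :=
  Classical.epsilon fun g => Moves (Yc false i) g α (linePt i M)

include H hα in
theorem eq_lineSym {i : Idx} {n : Pl} {g : Sym} (hg : Moves (Yc false i) g α n) :
    g = lineSym α i (MM i n) := by
  have hs : Moves (Yc false i) (lineSym α i (MM i n)) α (linePt i (MM i n)) :=
    Classical.epsilon_spec (exists_moves hα H (false, i) _)
  obtain ⟨g', hg'⟩ := exists_moves hα H (true, i) (linePt i (MM i n))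
  obtain ⟨m, hm⟩ := exists_linePt i n
  have hmove : Moves (Yc false i) g α (linePt i (MM i n)) := by
    obtain ⟨t, ht⟩ := moves_iff.1 hg
    refine moves_iff.2 ⟨t, ?_⟩
    have hp := AddSubgroup.zsmul_mem _ (line_period H (false, i)) m
    rw [Prod.smul_mk, smul_zero] at hp
    have e1 := hp (linePt i (MM i n)) (t + Pi.single (Yc false i) (unitSym (Yc false i) g))
    have e2 := hp (linePt i (MM i n)) t
    simp only [add_zero, ← hm] at e1 e2
    rwa [← e1, ← e2]
  exact (moves_exclusive H hmove hg').trans (moves_exclusive H hs hg').symm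

include H hα in
theorem lineSym_moves (i : Idx) (n : Pl) : Moves (Yc false i) (lineSym α i (MM i n)) α n := by
  obtain ⟨g, hg⟩ := exists_moves hα H (false, i) n
  exact eq_lineSym hα H hg ▸ hg

include H hα in
theorem lineSym_compat : Compat (lineSym α) := by
  intro n
  by_contra hne
  obtain ⟨i, hi⟩ := together H (cs := fun i => Yc false i) (hcs := col_injective)
    (a := fun i => unitSym (Yc false i) (lineSym α i (MM i n)))
    (H (.inr (.inr (.inr (.inr (.inr (.inl ⟨_, hne⟩))))))) n
  obtain ⟨t, ht⟩ := moves_iff.1 (lineSym_moves hα H i n)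
  exact ht (hi t)

include H in
theorem mark_of_moves {j : Bool} {g : Sym} {n : Pl}
    (hj : ∃ t, X (Uc j) α n (t + stepT (Uc j)) ≠ X (Uc j) α n t)
    (hg : Moves (Yc false i10) g α n) : g.1 = mark j := by
  by_contra hne
  classical
  have hcl := H (.inr (.inr (.inr (.inr (.inr (.inr ⟨(j, g), hne⟩))))))
  have heq : linkMove j g = fun b : Bool => ((0, Pi.single (linkComp j b)
      ((match b with
        | false => (1 : ZMod (hc (Uc j)))
        | true => unitSym (Yc false i10) g) : ZMod (hc (linkComp j b)))) : Pl × TT) := by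
    funext b
    cases b <;> rfl
  change (cls (linkComp j) (linkComp_injective j) (linkMove j g)).Holds α at hcl
  rw [heq] at hcl
  obtain ⟨b, hb⟩ := together H hcl n
  cases b
  · obtain ⟨t, ht⟩ := hj
    exact ht (hb t)
  · obtain ⟨t, ht⟩ := moves_iff.1 hg
    exact ht (hb t)

end Derive

/-- A function with values in a window that repeats a short pattern cannot be balanced. -/
theorem not_rect_product {P Q l : ℕ} [NeZero P] [NeZero Q] [NeZero l] (hco : Nat.Coprime 13 l)
    (hQ : 13 < Q) (hP : ¬ P ∣ 13) (c : ZMod 13 → ZMod P × ZMod Q) :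
    ¬ Rect (fun v => #{i : ZMod (13 * l) |
      c (ZMod.castHom (dvd_mul_right 13 l) (ZMod 13) i) = v}) := by
  classical
  intro hR
  refine not_rect c (by simpa using hQ) (by simpa using hP) fun v => ?_
  have hN : ∀ v, #{i : ZMod (13 * l) | c (ZMod.castHom (dvd_mul_right 13 l) (ZMod 13) i) = v} =
      l * #{y : ZMod 13 | c y = v} := by
    intro v
    have hfst : ∀ i : ZMod (13 * l), (ZMod.chineseRemainder hco i).1 =
        ZMod.castHom (dvd_mul_right 13 l) (ZMod 13) i :=
      fun i => RingHom.congr_fun (RingHom.ext_zmod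
        ((RingHom.fst (ZMod 13) (ZMod l)).comp (ZMod.chineseRemainder hco).toRingHom)
        (ZMod.castHom (dvd_mul_right 13 l) (ZMod 13))) i
    have := Finset.card_equiv (ZMod.chineseRemainder hco).toEquiv
      (s := ({i : ZMod (13 * l) | c (ZMod.castHom (dvd_mul_right 13 l) (ZMod 13) i) = v} : Finset _))
      (t := ({y : ZMod 13 | c y = v} : Finset _) ×ˢ (univ : Finset (ZMod l))) (fun i => by
        simp only [mem_filter, mem_univ, true_and, mem_product, and_true, ← hfst]
        rfl)
    rw [this, card_product, card_univ, ZMod.card, Nat.mul_comm]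
  have h := hR v
  simp only [hN, ← Nat.mul_add] at h
  exact Nat.eq_of_mul_eq_mul_left (NeZero.pos l) h

section Exceptional

variable {α : Pl → TT → GG} (hα : IsSection pr α) (H : ∀ e, (eqs e).Holds α)

include H in
theorem exists_exceptional_move (j : Bool) {R D : Type} [AddCommGroup R] [Fintype D] [Nonempty D]
    (W : WinData pr R D (13 * hc (Uc j)) (Pc (Uc j)) (Qc (Uc j))) (hv : W.val = valC (Uc j))
    (hd : W.d = (0, 1)) (hdv : ∀ k, ∃ m : ℤ, W.dv k = (m, 0)) (hst : W.st = stepT (Uc j))
    (hW : W.eqn.Holds α) (hα : IsSection pr α) :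
    ∃ n t, X (Uc j) α n (t + stepT (Uc j)) ≠ X (Uc j) α n t := by
  classical
  by_contra hne
  simp only [not_exists, not_not] at hne
  have hconst : ∀ n t t', X (Uc j) α n t = X (Uc j) α n t' := by
    intro n t t'
    have hk : ∀ k : ℕ, X (Uc j) α n (t + k • stepT (Uc j)) = X (Uc j) α n t := by
      intro k
      induction k with
      | zero => simp
      | succ k ih => rw [succ_nsmul, ← add_assoc, hne, ih]
    rw [← hk (t' (Uc j) - t (Uc j)).val]
    exact coord_dep H (by rw [smul_stepT]; simp) n
  have hy : ∀ (m a : ℤ) (t : TT), X (Uc j) α (m, a) t = X (Uc j) α (0, a) 0 := by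
    intro m a t
    rw [hconst (m, a) t 0]
    have := AddSubgroup.zsmul_mem _ (exceptional_period H j).1 m (0, a) 0
    simpa using this
  have h13 : ∀ a b : ℤ, X (Uc j) α (0, a + 13 * b) 0 = X (Uc j) α (0, a) 0 := by
    intro a b
    have := AddSubgroup.zsmul_mem _ (exceptional_period H j).2 b (0, a) 0
    simpa [mul_comm] using this
  have hdv' : ∀ k m t, W.val (α (m + W.dv k) t) = W.val (α m t) := by
    intro k ⟨m1, m2⟩ t
    obtain ⟨m, hm⟩ := hdv k
    rw [hv, hm]
    show X (Uc j) α _ _ = X (Uc j) α _ _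
    simp only [Prod.mk_add_mk, add_zero]
    rw [hy, hy m1]
  have hper : ∀ m t, W.val (α (m + ((13 * hc (Uc j) : ℕ) : ℤ) • W.d) (t + ((13 * hc (Uc j) : ℕ) : ℤ) • W.st)) =
      W.val (α m t) := by
    intro ⟨m1, m2⟩ t
    rw [hv, hd]
    show X (Uc j) α _ _ = X (Uc j) α _ _
    simp only [Prod.smul_mk, smul_zero, smul_eq_mul, mul_one, Prod.mk_add_mk, add_zero]
    rw [hy, hy m1, Nat.cast_mul, Nat.cast_ofNat, h13]
  have hR := W.sound hdv' hper hα hW (0, 0) 0
  refine not_rect_product (coprime_thirteen_hc (Uc j)) ?_ ?_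
    (fun r : ZMod 13 => X (Uc j) α (0, -(r.val : ℤ)) 0) ?_
  · show 13 < Qc (Uc j)
    cases j <;> simp [Qc]
  · show ¬ Pc (Uc j) ∣ 13
    cases j <;> simp [Pc] <;> norm_num
  · convert hR using 2
    rename_i v
    unfold WinData.count
    congr 1
    ext i
    simp only [mem_filter, mem_univ, true_and, hv, hd]
    show X (Uc j) α (0, -(_ : ℤ)) 0 = v ↔ X (Uc j) α _ _ = v
    simp only [Prod.smul_mk, smul_zero, smul_eq_mul, mul_one, Prod.mk_sub_mk, zero_sub]
    have hdiv : -(i.val : ℤ) + 13 * ((i.val / 13 : ℕ) : ℤ) = -((i.val % 13 : ℕ) : ℤ) := by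
      push_cast
      omega
    rw [ZMod.castHom_apply, ZMod.cast_eq_val, ZMod.val_natCast, ← hdiv, h13]
    conv_rhs => rw [hy]

include H hα in
theorem exists_marked (j : Bool) : ∃ y, (lineSym α i10 y).1 = mark j := by
  obtain ⟨n, t, ht⟩ : ∃ n t, X (Uc j) α n (t + stepT (Uc j)) ≠ X (Uc j) α n t := by
    cases j
    · exact exists_exceptional_move H false winU0 rfl rfl (fun _ => ⟨0, rfl⟩) rfl
        (H (.inr (.inr (.inr (.inl (.inr false)))))) hα
    · exact exists_exceptional_move H true winU1 rfl rfl (fun k => ⟨(k.val : ℤ), rfl⟩) rfl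
        (H (.inr (.inr (.inr (.inl (.inr true)))))) hα
  exact ⟨MM i10 n, mark_of_moves H ⟨t, ht⟩ (lineSym_moves hα H i10 n)⟩

include H hα in
theorem no_periodic_section {P : ℕ} (hP : 0 < P)
    (h1 : ∀ n t, α (n + ((P : ℤ), 0)) t = α n t) (h2 : ∀ n t, α (n + (0, (P : ℤ))) t = α n t) :
    False := by
  obtain ⟨y0, hy0⟩ := exists_marked hα H false
  obtain ⟨y1, hy1⟩ := exists_marked hα H true
  refine sudoku_aperiodic (lineSym_compat hα H) ⟨y0, by simpa [mark] using hy0⟩
    ⟨y1, by simpa [mark] using hy1⟩ (P := (P : ℤ)) (by exact_mod_cast hP) fun i M => ?_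
  obtain ⟨b, w⟩ := i
  have hshift : ∀ t, α (linePt (b, w) (M + P)) t = α (linePt (b, w) M) t := by
    intro t
    cases b
    · have := h2 (linePt (false, w) M) t
      simpa [linePt] using this
    · have := h1 (linePt (true, w) M) t
      simpa [linePt] using this
  unfold lineSym
  congr 1
  funext g
  simp only [moves_iff, X, hshift]

end Exceptional

/-- The system of equations has no periodic tiling. -/
theorem no_periodic (A : Set (Pl × GG)) (h0 : FamTiles A (colFam pr.ker))
    (hA : ∀ e, FamTiles A (eqs e).fam) (P : ℕ) (hP : 0 < P) : ¬ PlPeriodic A P := by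
  obtain ⟨α, hα, rfl⟩ := exists_section pr_surjective h0
  intro hper
  exact no_periodic_section hα (fun e => (graphSet_eqn_iff hα _).1 (hA e)) hP
    (section_periodic hα fun a => (hper a).1) (section_periodic hα fun a => (hper a).2)

end Vale.Agent.P043.Z3
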