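import Mathlib

/-!
# The sudoku puzzle with `q = 13`

Every plane point sees the vector of (residue, last nonzero digit) of the values of all forms at some
integer pair.  If the residue of the form `(1, 0)` is not constant, there is no common period; the
explicit solution `canon` shows that the puzzle is consistent.
-/

namespace Vale.Agent.P043.Z3

/-- Indices: `(false, w)` is the form `(1, w)` and `(true, w)` is the form `(w, 1)`. -/
abbrev Idx := Bool × Fin 209

/-- Symbols: a residue and a last nonzero digit. -/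
abbrev Sym := ZMod 13 × ZMod 13

/-- First coefficient of a form. -/
def uC (i : Idx) : ℤ := if i.1 then (i.2 : ℤ) else 1

/-- Second coefficient of a form. -/
def wC (i : Idx) : ℤ := if i.1 then 1 else (i.2 : ℤ)

/-- The value of a form at `(a, b)`. -/
def lin (i : Idx) (a b : ℤ) : ℤ := uC i * a + wC i * b

/-- The line coordinate of the plane point `n = (x, y)`. -/
def MM (i : Idx) (n : ℤ × ℤ) : ℤ := lin i n.2 n.1

/-- The last nonzero digit in base thirteen. -/
def lastDigit (m : ℤ) : ZMod 13 := ((m / 13 ^ padicValInt 13 m : ℤ) : ZMod 13)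

/-- The symbol of an integer. -/
def symOf (m : ℤ) : Sym := ((m : ZMod 13), lastDigit m)

/-- The possible columns of symbols. -/
def Allowed (g : Idx → Sym) : Prop :=
  ∃ a b : ℤ, ∀ i, lin i a b ≠ 0 ∧ g i = symOf (lin i a b)

/-- Every plane point sees an allowed column. -/
def Compat (s : Idx → ℤ → Sym) : Prop := ∀ n : ℤ × ℤ, Allowed fun i => s i (MM i n)

/-- The index `(1, 0)`. -/
def i10 : Idx := (false, 0)

namespace Sudoku

abbrev Z13 : Type := ZMod 13
abbrev Pl : Type := ℤ × ℤ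

instance : Fact (Nat.Prime 13) := ⟨by norm_num⟩

/-- Coordinates adapted to a family of indices. -/
def co (t : Bool) (n : Pl) : Pl := if t then (n.2, n.1) else n

/-- The value of a form at a pair. -/
def lf (i : Idx) (n : Pl) : ℤ := (co i.1 n).1 + (i.2.val : ℤ) * (co i.1 n).2

lemma lf_eq (i : Idx) (a b : ℤ) : lf i (a, b) = lin i a b := by
  rcases i with ⟨t, w⟩; cases t <;> simp [lf, co, lin, uC, wC]; ring

def i01 : Idx := (true, 0)
def i11 : Idx := (false, 1)

/-! ### Basic facts -/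

lemma thirteen : (13 : Z13) = 0 := by decide

lemma lastDigit_of {N : ℤ} {j : ℕ} {M : ℤ} (hN : N = 13 ^ j * M) (hM : (M : Z13) ≠ 0) :
    lastDigit N = (M : Z13) := by
  have hM0 : M ≠ 0 := by rintro rfl; simp at hM
  have hnd : ¬ (13 : ℤ) ∣ M := fun h => hM ((ZMod.intCast_zmod_eq_zero_iff_dvd M 13).2 h)
  have hv : padicValInt 13 N = j := by
    rw [hN, padicValInt.mul (pow_ne_zero _ (by norm_num)) hM0]
    have h1 : padicValInt 13 ((13 : ℤ) ^ j) = j := by simp [padicValInt, Int.natAbs_pow]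
    have h2 : padicValInt 13 M = 0 := padicValInt.eq_zero_of_not_dvd (by exact_mod_cast hnd)
    rw [h1, h2, add_zero]
  rw [lastDigit, hv, hN, Int.mul_ediv_cancel_left _ (pow_ne_zero _ (by norm_num))]

lemma lastDigit_unit {N : ℤ} (h : (N : Z13) ≠ 0) : lastDigit N = (N : Z13) :=
  lastDigit_of (j := 0) (by simp) h

lemma exists_pow (N : ℤ) (hN : N ≠ 0) : ∃ (j : ℕ) (M : ℤ), N = 13 ^ j * M ∧ (M : Z13) ≠ 0 := by
  obtain ⟨M, hM⟩ : (13 : ℤ) ^ padicValInt 13 N ∣ N := padicValInt_dvd N
  refine ⟨_, M, hM, fun h => ?_⟩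
  obtain ⟨M', hM'⟩ := (ZMod.intCast_zmod_eq_zero_iff_dvd M 13).1 h
  have : (13 : ℤ) ^ (padicValInt 13 N + 1) ∣ N := ⟨M', by
    conv_lhs => rw [hM, hM']
    push_cast; ring⟩
  rcases (padicValInt_dvd_iff (p := 13) _ N).1 (by exact_mod_cast this) with h0 | h0
  · exact hN h0
  · omega

lemma lastDigit_thirteen_pow_mul (j : ℕ) {N : ℤ} (hN : N ≠ 0) :
    lastDigit (13 ^ j * N) = lastDigit N := by
  obtain ⟨e, M, rfl, hM⟩ := exists_pow N hN
  rw [lastDigit_of (j := j + e) (by ring) hM, lastDigit_of rfl hM]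

lemma lastDigit_mul_unit {N c : ℤ} (hN : N ≠ 0) (hc : (c : Z13) ≠ 0) :
    lastDigit (c * N) = (c : Z13) * lastDigit N := by
  obtain ⟨e, M, rfl, hM⟩ := exists_pow N hN
  have h : ((c * M : ℤ) : Z13) ≠ 0 := by push_cast; exact mul_ne_zero hc hM
  rw [lastDigit_of (j := e) (M := c * M) (by ring) h, lastDigit_of rfl hM, Int.cast_mul]

lemma symOf_mul_unit {N c : ℤ} (hN : N ≠ 0) (hc : (c : Z13) ≠ 0) :
    symOf (c * N) = ((c : Z13) * (symOf N).1, (c : Z13) * (symOf N).2) := by
  simp [symOf, lastDigit_mul_unit hN hc]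

lemma lf_add (i : Idx) (a b : Pl) : lf i (a + b) = lf i a + lf i b := by
  rcases i with ⟨t, w⟩; cases t <;> simp [lf, co] <;> ring

lemma lf_smul (i : Idx) (c : ℤ) (a : Pl) : lf i (c • a) = c * lf i a := by
  rcases i with ⟨t, w⟩; cases t <;> simp [lf, co] <;> ring

lemma lf_i10 (n : Pl) : lf i10 n = n.1 := by simp [lf, co, i10]

lemma lf_i01 (n : Pl) : lf i01 n = n.2 := by simp [lf, co, i01]

lemma lf_i11 (n : Pl) : lf i11 n = n.1 + n.2 := by simp [lf, co, i11]

lemma lf_cast (i : Idx) (a : Pl) : (lf i a : Z13) =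
    (if i.1 then (a.2 : Z13) + (i.2.val : Z13) * (a.1 : Z13)
     else (a.1 : Z13) + (i.2.val : Z13) * (a.2 : Z13)) := by
  rcases i with ⟨t, w⟩; cases t <;> simp [lf, co]

/-- A column realised by a pair, in vector notation. -/
def AllowedP (g : Idx → Sym) : Prop := ∃ p : Pl, ∀ i, lf i p ≠ 0 ∧ g i = symOf (lf i p)

/-! ### The normalised puzzle and its rigidity -/

/-- A puzzle whose residues are those of the forms themselves. -/
structure Good (V : Pl → Idx → Sym) : Prop where
  pat : ∀ n, AllowedP (V n)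
  line : ∀ i a b, lf i a = lf i b → V a i = V b i
  res : ∀ n i, (V n i).1 = (lf i n : Z13)

/-- The multiples of 13 that fit above the class `k`. -/
abbrev Rg (k : Fin 13) : Type := {r : ℕ // k.val + 13 * r < 209}

/-- The index with slope `k + 13 r` in family `t`. -/
def ix (t : Bool) (k : Fin 13) (r : Rg k) : Idx := (t, ⟨k.val + 13 * r.val, r.2⟩)

instance (k : Fin 13) : Zero (Rg k) := ⟨⟨0, by omega⟩⟩

lemma rg_zero (k : Fin 13) : ((0 : Rg k) : ℕ) = 0 := rfl

lemma lf_ix_cast (t : Bool) (k : Fin 13) (r : Rg k) (a : Pl) :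
    (lf (ix t k r) a : Z13) = (lf (ix t k 0) a : Z13) := by
  cases t <;> simp [lf, co, ix, thirteen, rg_zero]

lemma exists_avoid (f : Fin 5 → Z13 × Z13) (h : ∀ j, f j ≠ 0) :
    ∃ r : Z13, ∀ j, (f j).1 * r + (f j).2 ≠ 0 := by
  classical
  have hc : (Finset.univ.image fun j => -(f j).2 / (f j).1).card < Fintype.card Z13 :=
    lt_of_le_of_lt Finset.card_image_le (by simp)
  obtain ⟨r, hr⟩ : ∃ r : Z13, r ∉ Finset.univ.image fun j => -(f j).2 / (f j).1 := by
    by_contra! hall
    rw [Finset.eq_univ_iff_forall.2 hall, Finset.card_univ] at hc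
    exact lt_irrefl _ hc
  refine ⟨r, fun j hj => ?_⟩
  by_cases ha : (f j).1 = 0
  · rw [ha, zero_mul, zero_add] at hj
    exact h j (Prod.ext ha hj)
  · refine hr (Finset.mem_image.2 ⟨j, Finset.mem_univ _, ?_⟩)
    rw [div_eq_iff ha]
    linear_combination -hj

/-- A hole value as a function of the line, for the index `ix t k r`. -/
def hole (V : Pl → Idx → Sym) (t : Bool) (k : Fin 13) (r : Rg k) (m : ℤ) : Z13 :=
  (V (co t (13 * m, 0)) (ix t k r)).2

/-- What a point `(13 z - k x, x)` of a hole class says about the hole values. -/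
def PointShift (V : Pl → Idx → Sym) (t : Bool) (k : Fin 13) (z x : ℤ) (s : Z13) : Prop :=
  ∀ r : Rg k, ((z + r.val * x : ℤ) : Z13) + s ≠ 0 →
    hole V t k r (z + r.val * x) = ((z + r.val * x : ℤ) : Z13) + s

variable {V : Pl → Idx → Sym}

lemma Good.eq_hole (hV : Good V) (t : Bool) (k : Fin 13) (r : Rg k) {n : Pl} {m : ℤ}
    (h : lf (ix t k r) n = 13 * m) : (V n (ix t k r)).2 = hole V t k r m := by
  have : V n (ix t k r) = V (co t (13 * m, 0)) (ix t k r) :=
    hV.line _ _ _ (by
      rw [h]; cases t <;> simp [lf, co, ix])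
  rw [this]; rfl

/-- Residues of the pair behind the pattern at a point. -/
lemma Good.pair_res (hV : Good V) {n p : Pl} (hp : ∀ i, lf i p ≠ 0 ∧ V n i = symOf (lf i p)) :
    (p.1 : Z13) = (n.1 : Z13) ∧ (p.2 : Z13) = (n.2 : Z13) := by
  have key : ∀ i, (lf i p : Z13) = (lf i n : Z13) := fun i => by
    rw [← hV.res n i, (hp i).2]; rfl
  have h1 := key i10
  have h2 := key i01
  rw [lf_i10, lf_i10] at h1
  rw [lf_i01, lf_i01] at h2
  exact ⟨h1, h2⟩

lemma Good.exists_pointShift (hV : Good V) (t : Bool) (k : Fin 13) (z x : ℤ) :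
    ∃ s, PointShift V t k z x s := by
  set n : Pl := co t (13 * z - (k.val : ℤ) * x, x) with hn
  obtain ⟨p, hp⟩ := hV.pat n
  obtain ⟨e1, e2⟩ := hV.pair_res hp
  have ha : (((co t p).1 + (k.val : ℤ) * (co t p).2 : ℤ) : Z13) = 0 ∧
      ((co t p).2 : Z13) = (x : Z13) := by
    cases t <;> simp [hn, co, thirteen] at e1 e2 ⊢ <;> simp [e1, e2]
  obtain ⟨z0, hz0⟩ := (ZMod.intCast_zmod_eq_zero_iff_dvd _ 13).1 ha.1
  refine ⟨(z0 : Z13) - (z : Z13), fun r hr => ?_⟩
  have hl : lf (ix t k r) p = 13 ^ 1 * (z0 + r.val * (co t p).2) := by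
    simp [lf, ix] at hz0 ⊢
    linear_combination hz0
  have hl' : lf (ix t k r) n = 13 * (z + r.val * x) := by
    cases t <;> simp [lf, ix, hn, co] <;> ring
  have hM : ((z0 + r.val * (co t p).2 : ℤ) : Z13) = ((z + r.val * x : ℤ) : Z13) + ((z0 : Z13) - z) := by
    push_cast; rw [ha.2]; ring
  rw [← hM] at hr ⊢
  rw [← hV.eq_hole t k r hl', (hp _).2]
  exact lastDigit_of hl hr

/-- Two points whose crossing point is usable have the same shift. -/
lemma Good.pointShift_eq (hV : Good V) (t : Bool) (k : Fin 13) {z x z' x' : ℤ} {s s' : Z13}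
    (hx : (x : Z13) ≠ 0) (hx' : (x' : Z13) ≠ 0)
    (hp : PointShift V t k z x s) (hp' : PointShift V t k z' x' s')
    (hgood : (x' : Z13) - x ≠ 0 ∨ (z' : Z13) - z + x' ≠ 0) : s = s' := by
  by_contra hne
  let f : Fin 5 → Z13 × Z13 :=
    ![((x : Z13), (z : Z13) + s), ((x' : Z13), (z' : Z13) + x' + s'),
      ((x' : Z13), (z' : Z13) + x' + s), ((x : Z13), (z : Z13) + s'),
      ((x' : Z13) - x, (z' : Z13) - z + x')]
  obtain ⟨r, hr⟩ := exists_avoid f (by
    intro j; fin_cases j
    · simp [f, Prod.ext_iff, hx]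
    · simp [f, Prod.ext_iff, hx']
    · simp [f, Prod.ext_iff, hx']
    · simp [f, Prod.ext_iff, hx]
    · simp only [f, ne_eq, Prod.ext_iff]
      intro h'
      rcases hgood with h'' | h''
      · exact h'' (by simpa using h'.1)
      · exact h'' (by simpa using h'.2))
  have hlt : r.val < 13 := ZMod.val_lt r
  let r1 : Rg k := ⟨r.val, by omega⟩
  let r2 : Rg k := ⟨r.val + 1, by omega⟩
  set m1 : ℤ := z + r.val * x with hm1
  set m2 : ℤ := z' + (r.val + 1) * x' with hm2
  have c1 : (m1 : Z13) = (z : Z13) + r * x := by simp [hm1]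
  have c2 : (m2 : Z13) = (z' : Z13) + (r + 1) * x' := by simp [hm2]
  have h0 : (m1 : Z13) + s ≠ 0 := fun h => hr 0 (by simp [f]; rw [c1] at h; linear_combination h)
  have h1 : (m2 : Z13) + s' ≠ 0 := fun h => hr 1 (by simp [f]; rw [c2] at h; linear_combination h)
  have h2 : (m2 : Z13) + s ≠ 0 := fun h => hr 2 (by simp [f]; rw [c2] at h; linear_combination h)
  have h3 : (m1 : Z13) + s' ≠ 0 := fun h => hr 3 (by simp [f]; rw [c1] at h; linear_combination h)
  have h4 : ((m2 - m1 : ℤ) : Z13) ≠ 0 := fun h => hr 4 (by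
    push_cast at h; rw [c1, c2] at h; simp [f]; linear_combination h)
  obtain ⟨s2, hs2⟩ := hV.exists_pointShift t k (m1 - r.val * (m2 - m1)) (m2 - m1)
  have e1 : (m1 - r.val * (m2 - m1)) + (r1.val : ℤ) * (m2 - m1) = m1 := by simp [r1]
  have e2 : (m1 - r.val * (m2 - m1)) + (r2.val : ℤ) * (m2 - m1) = m2 := by simp [r2]; ring
  have a1 := hp r1
  have a2 := hp' r2
  have b1 := hs2 r1
  have b2 := hs2 r2
  rw [e1] at b1
  rw [e2] at b2
  rw [show z + (r1.val : ℤ) * x = m1 from rfl] at a1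
  rw [show z' + (r2.val : ℤ) * x' = m2 by simp [r2, hm2]] at a2
  specialize a1 h0
  specialize a2 h1
  rcases eq_or_ne ((m1 : Z13) + s2) 0 with u1 | u1 <;>
    rcases eq_or_ne ((m2 : Z13) + s2) 0 with u2 | u2
  · exact h4 (by push_cast; linear_combination u2 - u1)
  · exact h3 (by linear_combination u1 + a2.symm.trans (b2 u2))
  · exact h2 (by linear_combination u2 + a1.symm.trans (b1 u1))
  · exact hne (by linear_combination a1.symm.trans (b1 u1) - a2.symm.trans (b2 u2))

/-- On a hole class all points have one shift, so the hole values are affine off one residue. -/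
lemma Good.exists_shift (hV : Good V) (t : Bool) (k : Fin 13) :
    ∃ s : Z13, ∀ (r : Rg k) (m : ℤ), (m : Z13) + s ≠ 0 → hole V t k r m = (m : Z13) + s := by
  obtain ⟨s, hs⟩ := hV.exists_pointShift t k 0 1
  refine ⟨s, fun r m hm => ?_⟩
  obtain ⟨s', hs'⟩ := hV.exists_pointShift t k (m - r.val) 1
  have hss : s = s' := by
    by_cases h : (((m - r.val : ℤ) : Z13) - ((0 : ℤ) : Z13)) + ((1 : ℤ) : Z13) ≠ 0
    · exact hV.pointShift_eq t k (by simp) (by simp) hs hs' (Or.inr h)
    · refine (hV.pointShift_eq t k (by simp) (by simp) hs' hs (Or.inr ?_)).symm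
      intro h'
      rw [not_not] at h
      have h2 : (2 : Z13) = 0 := by push_cast at h h'; linear_combination h + h'
      exact absurd h2 (by decide)
  have := hs' r
  rw [show m - (r.val : ℤ) + r.val * 1 = m by ring, ← hss] at this
  exact this hm

/-- A primitive pair with constant last digits along a class has that residue on the class. -/
lemma class_residue {p : Pl} (hp : ¬ ((p.1 : Z13) = 0 ∧ (p.2 : Z13) = 0)) (t : Bool) (k : Fin 13)
    {v : Z13} (h : ∀ r : Rg k, lastDigit (lf (ix t k r) p) = v) :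
    (lf (ix t k 0) p : Z13) = v := by
  rcases eq_or_ne (lf (ix t k 0) p : Z13) 0 with h0 | h0
  · exfalso
    obtain ⟨z, hz⟩ := (ZMod.intCast_zmod_eq_zero_iff_dvd _ 13).1 h0
    have hb : ((co t p).2 : Z13) ≠ 0 := by
      intro hb
      apply hp
      cases t <;> simp [lf, co, ix, rg_zero] at h0 hb <;> simp [hb] at h0 <;> exact ⟨by assumption, by assumption⟩
    have key : ∀ u : Z13, u ≠ 0 → v = u := by
      intro u hu
      let r : Z13 := (u - z) / ((co t p).2 : Z13)
      have hlt : r.val < 13 := ZMod.val_lt r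
      let r' : Rg k := ⟨r.val, by omega⟩
      have hl : lf (ix t k r') p = 13 ^ 1 * (z + r.val * (co t p).2) := by
        simp [lf, ix, r', rg_zero] at hz ⊢
        linear_combination hz
      have hc : ((z + r.val * (co t p).2 : ℤ) : Z13) = u := by
        push_cast
        rw [ZMod.natCast_zmod_val]
        simp only [r]
        field_simp
        ring
      rw [← h r', lastDigit_of hl (by rw [hc]; exact hu), hc]
    have := (key 1 one_ne_zero).symm.trans (key 2 (by decide))
    exact absurd this (by decide)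
  · rw [← lastDigit_unit h0]
    exact h 0

/-- Strip the powers of 13 from the pair behind a pattern. -/
lemma exists_primitive {p : Pl} (hp : ∀ i, lf i p ≠ 0) :
    ∃ p' : Pl, ¬ ((p'.1 : Z13) = 0 ∧ (p'.2 : Z13) = 0) ∧
      ∀ i, lf i p' ≠ 0 ∧ lastDigit (lf i p) = lastDigit (lf i p') := by
  induction hN : p.1.natAbs + p.2.natAbs using Nat.strong_induction_on generalizing p with
  | _ N ih =>
    by_cases h : (p.1 : Z13) = 0 ∧ (p.2 : Z13) = 0
    · obtain ⟨a, ha⟩ := (ZMod.intCast_zmod_eq_zero_iff_dvd _ 13).1 h.1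
      obtain ⟨b, hb⟩ := (ZMod.intCast_zmod_eq_zero_iff_dvd _ 13).1 h.2
      have hpe : p = (13 : ℤ) • ((a, b) : Pl) := by ext <;> simp [ha, hb]
      have hq : ∀ i, lf i (a, b) ≠ 0 := fun i hi => hp i (by rw [hpe, lf_smul, hi, mul_zero])
      have ha0 : p.1 ≠ 0 := by have := hp i10; rwa [lf_i10] at this
      obtain ⟨p', h1, h2⟩ := ih (a.natAbs + b.natAbs) (by
        rw [← hN, ha, hb, Int.natAbs_mul, Int.natAbs_mul]
        have : a.natAbs ≠ 0 := by simpa using fun h0 : a = 0 => ha0 (by simp [ha, h0])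
        simp; omega) hq rfl
      refine ⟨p', h1, fun i => ⟨(h2 i).1, ?_⟩⟩
      rw [hpe, lf_smul]
      exact ((pow_one (13 : ℤ)) ▸ lastDigit_thirteen_pow_mul 1 (hq i)).trans (h2 i).2
    · exact ⟨p, h, fun i => ⟨hp i, rfl⟩⟩

/-- The pair behind the pattern at a lattice point. -/
lemma Good.lattice_pair (hV : Good V) (n : Pl) :
    ∃ p : Pl, ¬ ((p.1 : Z13) = 0 ∧ (p.2 : Z13) = 0) ∧
      ∀ i, lf i p ≠ 0 ∧ (V ((13 : ℤ) • n) i).2 = lastDigit (lf i p) := by
  obtain ⟨p, hp⟩ := hV.pat ((13 : ℤ) • n)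
  obtain ⟨p', h1, h2⟩ := exists_primitive fun i => (hp i).1
  refine ⟨p', h1, fun i => ⟨(h2 i).1, ?_⟩⟩
  rw [(hp i).2]
  exact (h2 i).2

lemma idx_eq_ix (i : Idx) : ∃ (k : Fin 13) (r : Rg k), i = ix i.1 k r := by
  refine ⟨⟨i.2.val % 13, Nat.mod_lt _ (by norm_num)⟩,
    ⟨i.2.val / 13, by rw [Nat.mod_add_div]; exact i.2.isLt⟩, ?_⟩
  rcases i with ⟨t, w⟩
  simp only [ix, Prod.mk.injEq, true_and, Fin.ext_iff]
  omega

/-- All hole shifts come from one lattice translation. -/
lemma Good.exists_centre (hV : Good V) :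
    ∃ c : Pl, ∀ n i, (lf i n : Z13) ≠ 0 → (V ((13 : ℤ) • (n + c)) i).2 = (lf i n : Z13) := by
  choose s hs using fun t k => hV.exists_shift t k
  set a : Z13 := s false 0
  set b : Z13 := s true 0
  let L : Bool → Fin 13 → Z13 := fun t k =>
    if t then b + (k.val : Z13) * a else a + (k.val : Z13) * b
  have hat : ∀ (n : Pl) (t : Bool) (k : Fin 13) (r : Rg k),
      (lf (ix t k 0) n : Z13) + s t k ≠ 0 →
      (V ((13 : ℤ) • n) (ix t k r)).2 = (lf (ix t k 0) n : Z13) + s t k := by
    intro n t k r h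
    rw [hV.eq_hole t k r (lf_smul _ _ _), ← lf_ix_cast t k r n]
    exact hs t k r _ (by rwa [lf_ix_cast])
  have lin : ∀ t k, s t k = L t k := by
    intro t k
    by_cases hk : k = 0
    · subst hk; cases t <;> simp [L, a, b]
    have hkz : (k.val : Z13) ≠ 0 := by revert hk; revert k; decide
    -- residues `(y, x)` with `y, x` and the class value all nonzero
    obtain ⟨r, hr⟩ := exists_avoid
      ![((1 : Z13), 0), (if t then ((1 : Z13), (k.val : Z13) + (s t k - L t k))
          else ((k.val : Z13), 1 + (s t k - L t k))), (1, 0), (1, 0), (1, 0)] (by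
        intro j; fin_cases j <;> cases t <;> simp [Prod.ext_iff, hkz])
    have hx : r ≠ 0 := by simpa using hr 0
    have hv := hr 1
    let n : Pl := (((1 - a).val : ℤ), ((r - b).val : ℤ))
    have n1 : (n.1 : Z13) = 1 - a := by simp [n]
    have n2 : (n.2 : Z13) = r - b := by simp [n]
    obtain ⟨p, hp, hpV⟩ := hV.lattice_pair n
    have hc : ∀ t' k', (lf (ix t' k' 0) n : Z13) + s t' k' ≠ 0 →
        (lf (ix t' k' 0) p : Z13) = (lf (ix t' k' 0) n : Z13) + s t' k' := fun t' k' h =>
      class_residue hp t' k' fun r' => ((hpV _).2).symm.trans (hat n t' k' r' h)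
    have p1 := hc false 0 (by simp [lf, co, ix, a, n1, rg_zero])
    have p2 := hc true 0 (by simp [lf, co, ix, b, n2, hx, rg_zero])
    simp [lf, co, ix, n1, n2, a, b, rg_zero] at p1 p2
    have p3 := hc t k
    cases t
    · simp [lf, co, ix, L, n1, n2, p1, p2, rg_zero] at hv p3 ⊢
      have := p3 (fun h => hv (by linear_combination h))
      linear_combination -this
    · simp [lf, co, ix, L, n1, n2, p1, p2, rg_zero] at hv p3 ⊢
      have := p3 (fun h => hv (by linear_combination h))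
      linear_combination -this
  refine ⟨(((-a).val : ℤ), ((-b).val : ℤ)), fun n i hi => ?_⟩
  obtain ⟨k, r, e⟩ := idx_eq_ix i
  set c : Pl := (((-a).val : ℤ), ((-b).val : ℤ))
  have hval : (lf (ix i.1 k 0) (n + c) : Z13) + s i.1 k = (lf i n : Z13) := by
    conv_rhs => rw [e, lf_ix_cast]
    rw [lin]
    cases i.1 <;> simp [lf, co, ix, L, c, rg_zero] <;> ring
  rw [e, hat _ _ _ _ (by rwa [hval]), hval, ← e]

/-- The descended puzzle. -/
def desc (c : Pl) (V : Pl → Idx → Sym) (n : Pl) (i : Idx) : Sym :=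
  ((lf i n : Z13), (V ((13 : ℤ) • (n + c)) i).2)

lemma Good.desc_good (hV : Good V) {c : Pl}
    (hc : ∀ n i, (lf i n : Z13) ≠ 0 → (V ((13 : ℤ) • (n + c)) i).2 = (lf i n : Z13)) :
    Good (desc c V) := by
  refine ⟨fun n => ?_, ?_, fun n i => rfl⟩
  · obtain ⟨p, hp, hpV⟩ := hV.lattice_pair (n + c)
    by_cases h0 : (n.1 : Z13) = 0 ∧ (n.2 : Z13) = 0
    · refine ⟨(13 : ℤ) • p, fun i => ?_⟩
      have hne : (13 : ℤ) * lf i p ≠ 0 := mul_ne_zero (by norm_num) (hpV i).1
      rw [lf_smul]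
      refine ⟨hne, ?_⟩
      unfold desc symOf
      have hl : lastDigit (13 * lf i p) = lastDigit (lf i p) := by
        simpa using lastDigit_thirteen_pow_mul 1 (hpV i).1
      rw [(hpV i).2, hl, lf_cast, h0.1, h0.2]
      simp [thirteen]
    · have hcl : ∀ t k, (lf (ix t k 0) n : Z13) ≠ 0 →
          (lf (ix t k 0) p : Z13) = (lf (ix t k 0) n : Z13) := fun t k h =>
        class_residue hp t k fun r => by
          rw [← (hpV _).2, hc n _ (by rwa [lf_ix_cast]), lf_ix_cast]
      have c1 := hcl false 0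
      have c2 := hcl true 0
      have c3 := hcl false 1
      simp [lf, co, ix, rg_zero] at c1 c2 c3
      have hres : (p.1 : Z13) = n.1 ∧ (p.2 : Z13) = n.2 := by
        rcases eq_or_ne (n.1 : Z13) 0 with a1 | a1
        · have a2 : (n.2 : Z13) ≠ 0 := fun a2 => h0 ⟨a1, a2⟩
          have e3 := c3 (by simpa [a1] using a2)
          exact ⟨by linear_combination e3 - c2 a2, c2 a2⟩
        · rcases eq_or_ne (n.2 : Z13) 0 with a2 | a2
          · have e3 := c3 (by simpa [a2] using a1)
            exact ⟨c1 a1, by linear_combination e3 - c1 a1⟩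
          · exact ⟨c1 a1, c2 a2⟩
      refine ⟨p, fun i => ⟨(hpV i).1, ?_⟩⟩
      unfold desc symOf
      rw [(hpV i).2, lf_cast i n, lf_cast i p, hres.1, hres.2]
  · intro i a b hab
    unfold desc
    have h : lf i ((13 : ℤ) • (a + c)) = lf i ((13 : ℤ) • (b + c)) := by
      simp only [lf_smul, lf_add, hab]
    rw [hab, hV.line i _ _ h]

/-- One descent step: a period is 13 times a period of another normalised puzzle. -/
lemma Good.period_step (hV : Good V) {P : Pl} (hP : ∀ n, V (n + P) = V n) :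
    ∃ (V' : Pl → Idx → Sym) (P' : Pl), Good V' ∧ (∀ n, V' (n + P') = V' n) ∧ P = (13 : ℤ) • P' := by
  have hres : ∀ i, (lf i P : Z13) = 0 := fun i => by
    have := congrArg (fun v => (v i).1) (hP 0)
    simp only [hV.res, zero_add] at this
    rw [this]; rcases i with ⟨t, w⟩; cases t <;> simp [lf, co]
  obtain ⟨y, hy⟩ := (ZMod.intCast_zmod_eq_zero_iff_dvd _ 13).1 (by simpa [lf_i10] using hres i10)
  obtain ⟨x, hx⟩ := (ZMod.intCast_zmod_eq_zero_iff_dvd _ 13).1 (by simpa [lf_i01] using hres i01)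
  have hPe : P = (13 : ℤ) • ((y, x) : Pl) := by ext <;> simp [hy, hx]
  obtain ⟨c, hc⟩ := hV.exists_centre
  have hsnd : ∀ n i, (V ((13 : ℤ) • (n + (y, x) + c)) i).2 = (V ((13 : ℤ) • (n + c)) i).2 := by
    intro n i
    rw [show (13 : ℤ) • (n + (y, x) + c) = (13 : ℤ) • (n + c) + P by rw [hPe, ← smul_add]; congr 1; abel,
      hP]
  have hzero : ∀ i, (lf i ((y, x) : Pl) : Z13) = 0 := by
    have key : ∀ (i : Idx) (e : Pl), lf i e = 1 → (lf i ((y, x) : Pl) : Z13) = 0 := by
      intro i e he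
      by_contra hne
      obtain ⟨u, hu1, hu2⟩ : ∃ u : Z13, u ≠ 0 ∧ u + (lf i ((y, x) : Pl) : Z13) ≠ 0 := by
        generalize (lf i ((y, x) : Pl) : Z13) = z; revert z; decide
      have ev : (lf i ((u.val : ℤ) • e) : Z13) = u := by
        rw [lf_smul, he, mul_one, Int.cast_natCast, ZMod.natCast_zmod_val]
      have ev2 : (lf i ((u.val : ℤ) • e + (y, x)) : Z13) = u + (lf i ((y, x) : Pl) : Z13) := by
        rw [lf_add, Int.cast_add, ev]
      have h1 := hc ((u.val : ℤ) • e) i (by rwa [ev])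
      have h2 := hc ((u.val : ℤ) • e + (y, x)) i (by rwa [ev2])
      rw [hsnd, h1, ev, ev2] at h2
      exact hne (by linear_combination -h2)
    intro i
    have hy0 := key i10 (1, 0) (by simp [lf_i10])
    have hx0 := key i01 (0, 1) (by simp [lf_i01])
    rw [lf_i10] at hy0
    rw [lf_i01] at hx0
    simp at hy0 hx0
    rw [lf_cast]
    simp [hy0, hx0]
  refine ⟨desc c V, (y, x), hV.desc_good hc, fun n => ?_, hPe⟩
  funext i
  exact Prod.ext (by simp [desc, lf_add, hzero i]) (hsnd n i)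

theorem Good.period_eq_zero (hV : Good V) {P : Pl} (hP : ∀ n, V (n + P) = V n) : P = 0 := by
  induction hN : P.1.natAbs + P.2.natAbs using Nat.strong_induction_on generalizing V P with
  | _ N ih =>
    obtain ⟨V', P', hV', hP', rfl⟩ := hV.period_step hP
    by_contra hne
    have hne' : P' ≠ 0 := fun h => hne (by simp [h])
    have hpos : P'.1.natAbs + P'.2.natAbs ≠ 0 := fun h => hne' (by
      ext <;> simp <;> omega)
    refine hne' (ih _ ?_ hV' hP' rfl)
    rw [← hN]
    simp [Int.natAbs_mul]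
    omega

/-! ### Normalisation and the main theorem -/

theorem no_common_period {s : Idx → ℤ → Sym} (h : Compat s)
    (h0 : ∃ y, (s i10 y).1 = 0) (h1 : ∃ y, (s i10 y).1 = 1) {P : ℤ}
    (hP : ∀ i M, s i (M + P) = s i M) : P = 0 := by
  set V : Pl → Idx → Sym := fun n i => s i (lf i n) with hVd
  have hpat : ∀ n, AllowedP (V n) := fun n => by
    obtain ⟨a, b, hab⟩ := h (n.2, n.1)
    refine ⟨(a, b), fun i => ?_⟩
    have e : MM i (n.2, n.1) = lf i n := (lf_eq i n.1 n.2).symm
    have h2 := (hab i).2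
    simp only [e] at h2
    rw [lf_eq]
    exact ⟨(hab i).1, h2⟩
  have hlin : ∀ n i, (V n i).1 =
      (if i.1 then (V n i01).1 + (i.2.val : Z13) * (V n i10).1
       else (V n i10).1 + (i.2.val : Z13) * (V n i01).1) := by
    intro n i
    obtain ⟨p, hp⟩ := hpat n
    rw [(hp i).2, (hp i10).2, (hp i01).2]
    simp [symOf, lf_i10, lf_i01, lf_cast]
  set f : ℤ → Z13 := fun y => (s i10 y).1 with hf
  set g : ℤ → Z13 := fun x => (s i01 x).1 with hg
  have ef : ∀ n : Pl, (V n i10).1 = f n.1 := fun n => by simp [hVd, hf, lf_i10]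
  have eg : ∀ n : Pl, (V n i01).1 = g n.2 := fun n => by simp [hVd, hg, lf_i01]
  have eh : ∀ y x : ℤ, f y + g x = (s i11 (y + x)).1 := by
    intro y x
    have h1 := hlin (y, x) i11
    rw [ef, eg] at h1
    simp [i11] at h1
    rw [← h1]
    simp [hVd, i11, lf, co]
  set l : Z13 := g 1 - g 0 with hl
  have hstep : ∀ y, f (y + 1) = f y + l := fun y => by
    have a1 := eh (y + 1) 0
    have a2 := eh y 1
    rw [add_zero] at a1
    rw [hl]; linear_combination a1 - a2
  have hfy : ∀ y : ℤ, f y = f 0 + l * (y : Z13) := by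
    intro y
    induction y using Int.induction_on with
    | zero => simp
    | succ j ih => rw [hstep, ih]; push_cast; ring
    | pred j ih =>
      have := hstep (-(j : ℤ) - 1)
      rw [sub_add_cancel, ih] at this
      push_cast at this ⊢; linear_combination -this
  have hgx : ∀ x : ℤ, g x = g 0 + l * (x : Z13) := fun x => by
    have a1 := eh x 0
    have a2 := eh 0 x
    rw [add_zero] at a1
    rw [zero_add] at a2
    linear_combination a2 - a1 + hfy x
  have hl0 : l ≠ 0 := by
    intro hl0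
    obtain ⟨y, hy⟩ := h0
    obtain ⟨y', hy'⟩ := h1
    have e1 : f y = 0 := hy
    have e2 : f y' = 1 := hy'
    rw [hfy y, hl0] at e1
    rw [hfy y', hl0] at e2
    exact zero_ne_one (α := Z13) (by linear_combination e2 - e1)
  set c : ℤ := ((l⁻¹).val : ℤ) with hc
  have hcz : (c : Z13) = l⁻¹ := by simp [hc]
  have hc0 : (c : Z13) ≠ 0 := by rw [hcz]; exact inv_ne_zero hl0
  set n0 : Pl := (((-(f 0) / l).val : ℤ), ((-(g 0) / l).val : ℤ)) with hn0
  let V' : Pl → Idx → Sym := fun n i =>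
    ((c : Z13) * (V (n + n0) i).1, (c : Z13) * (V (n + n0) i).2)
  have hgood : Good V' := by
    refine ⟨fun n => ?_, fun i a b hab => ?_, fun n i => ?_⟩
    · obtain ⟨p, hp⟩ := hpat (n + n0)
      refine ⟨c • p, fun i => ?_⟩
      have hc' : c ≠ 0 := fun h => hc0 (by simp [h])
      rw [lf_smul]
      refine ⟨mul_ne_zero hc' (hp i).1, ?_⟩
      rw [symOf_mul_unit (hp i).1 hc0, ← (hp i).2]
    · simp only [V', hVd, lf_add, hab]
    · show (c : Z13) * (V (n + n0) i).1 = _
      rw [hlin, ef, eg, hfy, hgx, lf_cast, hcz]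
      cases i.1 <;> simp [hn0] <;> field_simp <;> ring
  have hmul : ∀ (i : Idx) (j : ℤ) (M : ℤ), s i (M + j * P) = s i M := by
    intro i j
    induction j using Int.induction_on with
    | zero => simp
    | succ j ih => intro M; rw [add_mul, one_mul, ← add_assoc, hP, ih]
    | pred j ih =>
      intro M
      rw [sub_mul, one_mul, ← hP i, show M + (-(j : ℤ) * P - P) + P = M + -(j : ℤ) * P by ring, ih]
  have hper : ∀ n : Pl, V' (n + (P, 0)) = V' n := fun n => by
    funext i
    have e : lf i (n + (P, 0) + n0) = lf i (n + n0) + uC i * P := by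
      rcases i with ⟨t, w⟩; cases t <;> simp [lf, co, uC] <;> ring
    simp only [V', hVd, e, hmul]
  exact congrArg Prod.fst (hgood.period_eq_zero hper)

end Sudoku

/-- The explicit solution. -/
def canon (i : Idx) (M : ℤ) : Sym := symOf (6 * M + (3 * uC i + 2 * wC i))

theorem canon_compat : Compat canon := by
  intro n
  refine ⟨6 * n.2 + 3, 6 * n.1 + 2, fun i => ?_⟩
  have e : lin i (6 * n.2 + 3) (6 * n.1 + 2) = 6 * MM i n + (3 * uC i + 2 * wC i) := by
    simp only [lin, MM]; ring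
  refine ⟨?_, by rw [e]; rfl⟩
  rw [e]
  rcases i with ⟨t, w⟩
  cases t <;> simp [uC, wC] <;> omega

theorem sudoku_aperiodic {s : Idx → ℤ → Sym} (h : Compat s)
    (h0 : ∃ y, (s i10 y).1 = 0) (h1 : ∃ y, (s i10 y).1 = 1) {P : ℤ} (hP : 0 < P) :
    ¬ ∀ i M, s i (M + P) = s i M := fun hper =>
  hP.ne' (Sudoku.no_common_period h h0 h1 hper)

end Vale.Agent.P043.Z3
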