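import Vale.Agent.P043.Z3.Basic
import Vale.Agent.P043.Z3.Sudoku

/-! The moduli of the construction, the cyclic group and its projection. -/

namespace Vale.Agent.P043.Z3

/-- Components: two copies of each index and two exceptional ones. -/
abbrev Comp := (Bool × Idx) ⊕ Bool

/-- The numbering of components. -/
noncomputable def code (c : Comp) : ℕ := (Fintype.equivFin Comp c : ℕ)

theorem code_inj : Function.Injective code := fun _ _ h =>
  (Fintype.equivFin Comp).injective (Fin.ext h)

theorem code_lt (c : Comp) : code c < Fintype.card Comp := (Fintype.equivFin Comp c).isLt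

/-- First value modulus. -/
noncomputable def Pc : Comp → ℕ
  | .inl x => Nat.nth Nat.Prime (20 + 2 * code (.inl x))
  | .inr j => if j then 3 else 2

/-- Second value modulus. -/
noncomputable def Qc : Comp → ℕ
  | .inl x => Nat.nth Nat.Prime (21 + 2 * code (.inl x))
  | .inr j => if j then 19 else 17

/-- First index of the coordinate primes. -/
noncomputable irreducible_def bigIndex : ℕ :=
  22 + 2 * Fintype.card Comp + ∑ c : Comp, Pc c * Qc c

/-- The coordinate primes. -/
@[irreducible] noncomputable def ell (c : Comp) (g : Sym) : ℕ :=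
  Nat.nth Nat.Prime (bigIndex + (Fintype.equivFin (Comp × Sym) (c, g) : ℕ))

/-- The coordinate modulus of a component. -/
@[irreducible] noncomputable def hc (c : Comp) : ℕ := ∏ g : Sym, ell c g

theorem hc_eq (c : Comp) : hc c = ∏ g : Sym, ell c g := by unfold hc; rfl

/-- All the primes in use, except thirteen. -/
noncomputable def usedPrime : (Comp ⊕ Comp) ⊕ (Comp × Sym) → ℕ
  | .inl (.inl c) => Pc c
  | .inl (.inr c) => Qc c
  | .inr x => ell x.1 x.2

theorem nth_prime_inj : Function.Injective (Nat.nth Nat.Prime) :=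
  Nat.nth_injective Nat.infinite_setOf_prime

theorem usedPrime_prime : ∀ x, (usedPrime x).Prime
  | .inl (.inl (.inl _)) => Nat.prime_nth_prime _
  | .inl (.inl (.inr true)) => Nat.prime_three
  | .inl (.inl (.inr false)) => Nat.prime_two
  | .inl (.inr (.inl _)) => Nat.prime_nth_prime _
  | .inl (.inr (.inr true)) => by simp [usedPrime, Qc]; norm_num
  | .inl (.inr (.inr false)) => by simp [usedPrime, Qc]; norm_num
  | .inr x => by simp only [usedPrime]; unfold ell; exact Nat.prime_nth_prime _

theorem small_lt_nth (k : ℕ) : 19 < Nat.nth Nat.Prime (20 + k) := by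
  have := Nat.add_two_le_nth_prime (20 + k); omega

theorem PQ_lt_ell (c : Comp) (g : Sym) : Pc c * Qc c < ell c g := by
  have h1 : Pc c * Qc c ≤ ∑ c : Comp, Pc c * Qc c :=
    Finset.single_le_sum (f := fun c => Pc c * Qc c) (fun _ _ => Nat.zero_le _) (Finset.mem_univ c)
  unfold ell
  have := Nat.add_two_le_nth_prime
    (bigIndex + (Fintype.equivFin (Comp × Sym) (c, g) : ℕ))
  have h2 : (∑ c : Comp, Pc c * Qc c) ≤ bigIndex := by rw [bigIndex_def]; omega
  omega

theorem thirteen_lt_ell (c : Comp) (g : Sym) : 19 < ell c g := by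
  unfold ell
  have := Nat.add_two_le_nth_prime
    (bigIndex + (Fintype.equivFin (Comp × Sym) (c, g) : ℕ))
  have : 22 ≤ bigIndex := by rw [bigIndex_def]; omega
  omega

/-- The position of a used prime among all primes, with a marker for the small ones. -/
noncomputable def primeIndex : (Comp ⊕ Comp) ⊕ (Comp × Sym) → ℕ ⊕ ℕ
  | .inl (.inl (.inl x)) => .inl (20 + 2 * code (.inl x))
  | .inl (.inl (.inr j)) => .inr (if j then 3 else 2)
  | .inl (.inr (.inl x)) => .inl (21 + 2 * code (.inl x))
  | .inl (.inr (.inr j)) => .inr (if j then 19 else 17)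
  | .inr x => .inl (bigIndex + (Fintype.equivFin (Comp × Sym) x : ℕ))

theorem usedPrime_eq (x : (Comp ⊕ Comp) ⊕ (Comp × Sym)) :
    usedPrime x = Sum.elim (Nat.nth Nat.Prime) id (primeIndex x) := by
  rcases x with ((_ | _) | (_ | _)) | _ <;> simp [usedPrime, primeIndex, Pc, Qc, ell]

theorem primeIndex_big (x : (Comp ⊕ Comp) ⊕ (Comp × Sym)) :
    (∀ n, primeIndex x = .inl n → 20 ≤ n) ∧ (∀ n, primeIndex x = .inr n → n ≤ 19) := by
  have : 22 ≤ bigIndex := by rw [bigIndex_def]; omega
  rcases x with ((_ | j) | (_ | j)) | _ <;> simp [primeIndex] <;> first | omega | (cases j <;> simp)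

theorem primeIndex_inj : Function.Injective primeIndex := by
  have hb : 22 + 2 * Fintype.card Comp ≤ bigIndex := by rw [bigIndex_def]; omega
  intro x y hxy
  have hcode : ∀ (a : Bool × Idx) (z : Comp × Sym) (k : ℕ), k ≤ 21 →
      k + 2 * code (.inl a) ≠ bigIndex + (Fintype.equivFin (Comp × Sym) z : ℕ) := by
    intro a z k hk
    have := code_lt (.inl a)
    omega
  match x, y with
  | .inl (.inl (.inl a)), .inl (.inl (.inl b)) =>
    simp only [primeIndex, Sum.inl.injEq] at hxy
    rw [Sum.inl.inj (code_inj (show code (.inl a) = code (.inl b) by omega))]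
  | .inl (.inr (.inl a)), .inl (.inr (.inl b)) =>
    simp only [primeIndex, Sum.inl.injEq] at hxy
    rw [Sum.inl.inj (code_inj (show code (.inl a) = code (.inl b) by omega))]
  | .inr a, .inr b =>
    simp only [primeIndex, Sum.inl.injEq] at hxy
    rw [(Fintype.equivFin (Comp × Sym)).injective (Fin.ext (Nat.add_left_cancel hxy))]
  | .inl (.inl (.inl a)), .inl (.inr (.inl b)) =>
    simp only [primeIndex, Sum.inl.injEq] at hxy; omega
  | .inl (.inr (.inl a)), .inl (.inl (.inl b)) =>
    simp only [primeIndex, Sum.inl.injEq] at hxy; omega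
  | .inl (.inl (.inl a)), .inr z => exact absurd (Sum.inl.inj hxy) (hcode a z 20 (by omega))
  | .inl (.inr (.inl a)), .inr z => exact absurd (Sum.inl.inj hxy) (hcode a z 21 (by omega))
  | .inr z, .inl (.inl (.inl a)) => exact absurd (Sum.inl.inj hxy).symm (hcode a z 20 (by omega))
  | .inr z, .inl (.inr (.inl a)) => exact absurd (Sum.inl.inj hxy).symm (hcode a z 21 (by omega))
  | .inl (.inl (.inr a)), .inl (.inl (.inr b)) => cases a <;> cases b <;> simp [primeIndex] at hxy ⊢
  | .inl (.inr (.inr a)), .inl (.inr (.inr b)) => cases a <;> cases b <;> simp [primeIndex] at hxy ⊢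
  | .inl (.inl (.inr a)), .inl (.inr (.inr b)) => cases a <;> cases b <;> simp [primeIndex] at hxy
  | .inl (.inr (.inr a)), .inl (.inl (.inr b)) => cases a <;> cases b <;> simp [primeIndex] at hxy
  | .inl (.inl (.inr _)), .inl (.inl (.inl _)) => simp [primeIndex] at hxy
  | .inl (.inl (.inr _)), .inl (.inr (.inl _)) => simp [primeIndex] at hxy
  | .inl (.inl (.inr _)), .inr _ => simp [primeIndex] at hxy
  | .inl (.inr (.inr _)), .inl (.inl (.inl _)) => simp [primeIndex] at hxy
  | .inl (.inr (.inr _)), .inl (.inr (.inl _)) => simp [primeIndex] at hxy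
  | .inl (.inr (.inr _)), .inr _ => simp [primeIndex] at hxy
  | .inl (.inl (.inl _)), .inl (.inl (.inr _)) => simp [primeIndex] at hxy
  | .inl (.inl (.inl _)), .inl (.inr (.inr _)) => simp [primeIndex] at hxy
  | .inl (.inr (.inl _)), .inl (.inl (.inr _)) => simp [primeIndex] at hxy
  | .inl (.inr (.inl _)), .inl (.inr (.inr _)) => simp [primeIndex] at hxy
  | .inr _, .inl (.inl (.inr _)) => simp [primeIndex] at hxy
  | .inr _, .inl (.inr (.inr _)) => simp [primeIndex] at hxy

theorem usedPrime_inj : Function.Injective usedPrime := by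
  intro x y hxy
  apply primeIndex_inj
  rw [usedPrime_eq, usedPrime_eq] at hxy
  have hx := primeIndex_big x
  have hy := primeIndex_big y
  rcases hix : primeIndex x with m | m <;> rcases hiy : primeIndex y with n | n <;>
    rw [hix, hiy] at hxy <;> simp only [Sum.elim_inl, Sum.elim_inr, id_eq] at hxy
  · rw [nth_prime_inj hxy]
  · have := hx.1 m hix; have := hy.2 n hiy; have := Nat.add_two_le_nth_prime m; omega
  · have := hx.2 m hix; have := hy.1 n hiy; have := Nat.add_two_le_nth_prime n; omega
  · rw [hxy]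

theorem usedPrime_coprime {x y : (Comp ⊕ Comp) ⊕ (Comp × Sym)} (h : x ≠ y) :
    Nat.Coprime (usedPrime x) (usedPrime y) :=
  (Nat.coprime_primes (usedPrime_prime x) (usedPrime_prime y)).2 (usedPrime_inj.ne h)

theorem usedPrime_ne_thirteen (x : (Comp ⊕ Comp) ⊕ (Comp × Sym)) : usedPrime x ≠ 13 := by
  rcases x with ((a | j) | (a | j)) | x
  · have := small_lt_nth (2 * code (.inl a)); simp only [usedPrime, Pc]; omega
  · cases j <;> simp [usedPrime, Pc]
  · have := Nat.add_two_le_nth_prime (21 + 2 * code (.inl a)); simp only [usedPrime, Qc]; omega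
  · cases j <;> simp [usedPrime, Qc]
  · have := thirteen_lt_ell x.1 x.2; simp only [usedPrime]; omega

theorem usedPrime_coprime_thirteen (x : (Comp ⊕ Comp) ⊕ (Comp × Sym)) :
    Nat.Coprime (usedPrime x) 13 :=
  (Nat.coprime_primes (usedPrime_prime x) (by norm_num)).2 (usedPrime_ne_thirteen x)

instance (c : Comp) : NeZero (Pc c) := ⟨(usedPrime_prime (.inl (.inl c))).ne_zero⟩
instance (c : Comp) : NeZero (Qc c) := ⟨(usedPrime_prime (.inl (.inr c))).ne_zero⟩
instance (c : Comp) (g : Sym) : NeZero (ell c g) := ⟨(usedPrime_prime (.inr (c, g))).ne_zero⟩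
instance (c : Comp) : Fact (1 < Pc c) := ⟨(usedPrime_prime (.inl (.inl c))).one_lt⟩
instance (c : Comp) : Fact (1 < Qc c) := ⟨(usedPrime_prime (.inl (.inr c))).one_lt⟩
instance (c : Comp) : NeZero (hc c) := ⟨hc_eq c ▸ Finset.prod_ne_zero_iff.2 fun _ _ => NeZero.ne _⟩

theorem coprime_PQ (c : Comp) : Nat.Coprime (Pc c) (Qc c) :=
  usedPrime_coprime (x := .inl (.inl c)) (y := .inl (.inr c)) (by simp)

theorem coprime_hc (c : Comp) (x : Comp ⊕ Comp) : Nat.Coprime (usedPrime (.inl x)) (hc c) :=
  hc_eq c ▸
    Nat.Coprime.prod_right fun g _ => usedPrime_coprime (x := .inl x) (y := .inr (c, g)) (by simp)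

theorem coprime_hc_hc {c c' : Comp} (h : c ≠ c') : Nat.Coprime (hc c) (hc c') :=
  by
  rw [hc_eq c, hc_eq c']
  exact Nat.Coprime.prod_left fun g _ => Nat.Coprime.prod_right fun g' _ =>
    usedPrime_coprime (x := .inr (c, g)) (y := .inr (c', g')) (by simp [h])

theorem coprime_thirteen_hc (c : Comp) : Nat.Coprime 13 (hc c) :=
  hc_eq c ▸ (Nat.Coprime.prod_left fun g _ => usedPrime_coprime_thirteen (.inr (c, g))).symm

theorem ell_pairwise (c : Comp) : Pairwise (Function.onFun Nat.Coprime (ell c)) := fun g g' h =>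
  usedPrime_coprime (x := .inr (c, g)) (y := .inr (c, g')) (by simp [h])

/-- The coordinates of a component, prime by prime. -/
noncomputable def crt (c : Comp) : ZMod (hc c) ≃+* ∀ g, ZMod (ell c g) :=
  (ZMod.ringEquivCongr (hc_eq c)).trans (ZMod.prodEquivPi (ell c) (ell_pairwise c))

theorem ell_dvd (c : Comp) (g : Sym) : ell c g ∣ hc c :=
  hc_eq c ▸ Finset.dvd_prod_of_mem _ (Finset.mem_univ g)

theorem ell_coprime_cofactor (c : Comp) (g : Sym) : Nat.Coprime (ell c g) (hc c / ell c g) := by
  have : hc c / ell c g = ∏ g' ∈ Finset.univ.erase g, ell c g' := by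
    rw [hc_eq, ← Finset.mul_prod_erase _ _ (Finset.mem_univ g), Nat.mul_div_cancel_left _
      (Nat.pos_of_ne_zero (NeZero.ne _))]
  rw [this]
  exact Nat.Coprime.prod_right fun g' hg' => ell_pairwise c (Finset.ne_of_mem_erase hg').symm

theorem crt_cast (c : Comp) (g : Sym) (k : ZMod (hc c)) :
    crt c k g = ZMod.castHom (ell_dvd c g) (ZMod (ell c g)) k :=
  RingHom.congr_fun (RingHom.ext_zmod
    ((Pi.evalRingHom (fun g => ZMod (ell c g)) g).comp (crt c).toRingHom)
    (ZMod.castHom (ell_dvd c g) (ZMod (ell c g)))) k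

/-- The element of the coordinate group moving only the prime of the symbol `g`. -/
noncomputable def unitSym (c : Comp) (g : Sym) : ZMod (hc c) := (crt c).symm (Pi.single g 1)

theorem sum_map_single {S : Type} [Fintype S] [DecidableEq S] {R : S → Type} [∀ s, CommRing (R s)]
    {Z : Type} [CommRing Z] (e : Z ≃+* ∀ s, R s) : ∑ s, e.symm (Pi.single s 1) = 1 := by
  rw [← map_sum, Finset.univ_sum_single (fun s => (1 : R s))]
  exact map_one e.symm

theorem sum_unitSym (c : Comp) : ∑ g, unitSym c g = 1 := by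
  unfold unitSym
  exact sum_map_single (crt c)

theorem cast_unitSym (c : Comp) {g g' : Sym} (h : g' ≠ g) :
    ZMod.castHom (ell_dvd c g') (ZMod (ell c g')) (unitSym c g) = 0 := by
  rw [← crt_cast, unitSym, RingEquiv.apply_symm_apply, Pi.single_eq_of_ne h]

attribute [irreducible] crt unitSym

/-- The part of the group belonging to one component. -/
abbrev Part (c : Comp) := ZMod (Pc c) × ZMod (Qc c) × ZMod (hc c ^ 2)

/-- The group. -/
abbrev GG := (∀ c, Part c) × ZMod 169

/-- The visible coordinates. -/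
abbrev TT := ∀ c, ZMod (hc c)

/-- The projection. -/
noncomputable def pr : GG →+ TT where
  toFun g c := ZMod.castHom (dvd_pow_self (hc c) two_ne_zero) (ZMod (hc c)) (g.1 c).2.2
  map_zero' := by funext c; simp
  map_add' g g' := by funext c; simp

/-- The product of the moduli of the components. -/
noncomputable irreducible_def partsProd : ℕ := ∏ c : Comp, Pc c * (Qc c * hc c ^ 2)

theorem partsProd_eq : partsProd = ∏ c : Comp, Pc c * (Qc c * hc c ^ 2) := by rw [partsProd_def]

/-- The modulus of the group. -/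
noncomputable def bigModulus : ℕ := partsProd * 169

instance : NeZero bigModulus := ⟨mul_ne_zero (by
  rw [partsProd_eq]
  exact Finset.prod_ne_zero_iff.2 fun c _ =>
    mul_ne_zero (NeZero.ne _) (mul_ne_zero (NeZero.ne _) (pow_ne_zero _ (NeZero.ne _))))
  (by norm_num)⟩

theorem coprime_part (c : Comp) : Nat.Coprime (Pc c) (Qc c * hc c ^ 2) :=
  Nat.Coprime.mul_right (coprime_PQ c) ((coprime_hc c (.inl c)).pow_right 2)

theorem coprime_part' (c : Comp) : Nat.Coprime (Qc c) (hc c ^ 2) :=
  (coprime_hc c (.inr c)).pow_right 2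

theorem part_pairwise :
    Pairwise (Function.onFun Nat.Coprime fun c => Pc c * (Qc c * hc c ^ 2)) := by
  intro c c' h
  have hPP : Nat.Coprime (Pc c) (Pc c') :=
    usedPrime_coprime (x := .inl (.inl c)) (y := .inl (.inl c')) (by simp [h])
  have hPQ : Nat.Coprime (Pc c) (Qc c') :=
    usedPrime_coprime (x := .inl (.inl c)) (y := .inl (.inr c')) (by simp)
  have hQP : Nat.Coprime (Qc c) (Pc c') :=
    usedPrime_coprime (x := .inl (.inr c)) (y := .inl (.inl c')) (by simp)
  have hQQ : Nat.Coprime (Qc c) (Qc c') :=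
    usedPrime_coprime (x := .inl (.inr c)) (y := .inl (.inr c')) (by simp [h])
  refine Nat.Coprime.mul_left ?_ (Nat.Coprime.mul_left ?_ ?_) <;>
    refine Nat.Coprime.mul_right ?_ (Nat.Coprime.mul_right ?_ ?_)
  · exact hPP
  · exact hPQ
  · exact (coprime_hc c' (.inl c)).pow_right 2
  · exact hQP
  · exact hQQ
  · exact (coprime_hc c' (.inr c)).pow_right 2
  · exact ((coprime_hc c (.inl c')).pow_right 2).symm
  · exact ((coprime_hc c (.inr c')).pow_right 2).symm
  · exact (coprime_hc_hc h).pow 2 2

theorem coprime_parts_thirteen : Nat.Coprime partsProd 169 := by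
  rw [partsProd_eq, show (169 : ℕ) = 13 ^ 2 by norm_num]
  refine Nat.Coprime.pow_right 2 (Nat.Coprime.prod_left fun c _ => ?_)
  exact Nat.Coprime.mul_left (usedPrime_coprime_thirteen (.inl (.inl c)))
    (Nat.Coprime.mul_left (usedPrime_coprime_thirteen (.inl (.inr c)))
      ((coprime_thirteen_hc c).symm.pow_left 2))

/-- The splitting of the modulus of one component. -/
noncomputable def partEquiv (c : Comp) : ZMod (Pc c * (Qc c * hc c ^ 2)) ≃+* Part c :=
  (ZMod.chineseRemainder (coprime_part c)).trans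
    (RingEquiv.prodCongr (RingEquiv.refl _) (ZMod.chineseRemainder (coprime_part' c)))

/-- The splitting of the product of all components. -/
noncomputable def partsEquiv : ZMod partsProd ≃+* ∀ c, Part c :=
  (ZMod.ringEquivCongr partsProd_eq).trans
    ((ZMod.prodEquivPi (fun c => Pc c * (Qc c * hc c ^ 2)) part_pairwise).trans
      (RingEquiv.piCongrRight partEquiv))

/-- The group is cyclic. -/
noncomputable def cyclicEquiv : GG ≃+ ZMod bigModulus :=
  (((ZMod.chineseRemainder coprime_parts_thirteen).trans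
    (RingEquiv.prodCongr partsEquiv (RingEquiv.refl (ZMod 169)))).symm).toAddEquiv

end Vale.Agent.P043.Z3
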