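import Vale.Agent.P043.Z3.Basic

/-! The window equation. -/

namespace Vale.Agent.P043.Z3

open Finset

/-- The four corners identity of a counting function on `ZMod P × ZMod Q`. -/
def Rect {P Q : ℕ} (N : ZMod P × ZMod Q → ℕ) : Prop :=
  ∀ v, N v + N (v - (1, 1)) = N (v - (1, 0)) + N (v - (0, 1))

/-- A partition of the window positions into cycles along which the value climbs in the first
coordinate (period `P`) or in the second one (period `Q`). -/
structure Decomp {h P Q : ℕ} (ψ : ZMod h → ZMod P × ZMod Q) : Type where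
  /-- successor in the cycle -/
  τ : Equiv.Perm (ZMod h)
  /-- the kind of the cycle -/
  kind : ZMod h → Bool
  kind_τ : ∀ k, kind (τ k) = kind k
  cycle : ∀ k, (τ ^ (if kind k then Q else P)) k = k
  step : ∀ k, ψ (τ k) = ψ k + (if kind k then (0, 1) else (1, 0))

/-- The value offset of the piece `κ`. -/
def winVal {P Q : ℕ} (κ : ZMod P × ZMod Q) : ZMod P × ZMod Q :=
  (κ.1 + (if κ.2 = 0 then 1 else 0), κ.2 + (if κ.1 = 0 then 1 else 0))

variable {G T R D : Type} [AddCommGroup G] [AddCommGroup T] [AddCommGroup R]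
  {π : G →+ T} {h P Q : ℕ} [NeZero h] [NeZero P] [NeZero Q] [Fintype D]

/-- The data of a window: value map, label register, step, dummy offsets and three integers
that are a residue basis for `h, P, Q`. -/
structure WinData (π : G →+ T) (R D : Type) [AddCommGroup R] (h P Q : ℕ) : Type where
  val : G →+ ZMod P × ZMod Q
  reg : G →+ R
  d : Pl
  st : T
  r1 : R
  dv : D → Pl
  a : ℤ
  b : ℤ
  c : ℤ
  ha : (a : ZMod h) = 1 ∧ (a : ZMod P) = 0 ∧ (a : ZMod Q) = 0
  hb : (b : ZMod h) = 0 ∧ (b : ZMod P) = 1 ∧ (b : ZMod Q) = 0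
  hc : (c : ZMod h) = 0 ∧ (c : ZMod P) = 0 ∧ (c : ZMod Q) = 1
  lift : ∀ (m : ℤ) (v : ZMod P × ZMod Q), ∃ g, π g = m • st ∧ val g = v ∧ reg g = m • r1

namespace WinData

/-- The integer offset of the piece `(i, κ)`. -/
def m (W : WinData π R D h P Q) (p : ZMod h × (ZMod P × ZMod Q)) : ℤ :=
  W.a * (p.1.val : ℤ) + W.b * (if p.2.2 = 0 then 1 else 0) + W.c * (if p.2.1 = 0 then 1 else 0)

/-- The window equation. -/
noncomputable def eqn (W : WinData π R D h P Q) : Eqn π where
  ι := (ZMod h × (ZMod P × ZMod Q)) × D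
  fin := inferInstance
  v p := W.m p.1 • W.d + W.dv p.2
  c p := Classical.choose (W.lift (W.m p.1) (winVal p.1.2))
  K := W.val.ker ⊓ W.reg.ker

/-- The number of cells of the window ending at `(n, t)` with value `v`. -/
noncomputable def count (W : WinData π R D h P Q) (α : Pl → T → G) (n : Pl) (t : T)
    (v : ZMod P × ZMod Q) : ℕ :=
  #{i : ZMod h | W.val (α (n - (i.val : ℤ) • W.d) (t - (i.val : ℤ) • W.st)) = v}

/-- The label of a cell. -/
def label {O : Type} {ψ : O → ZMod h → ZMod P × ZMod Q} (dec : ∀ o, Decomp (ψ o))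
    (orb : Pl → T → O) (K : Pl → T → ZMod h) (φ : Pl → ℤ) (n : Pl) (t : T) : ZMod h :=
  ((dec (orb n t)).τ ^ (-φ n)) (K n t)

end WinData

end Vale.Agent.P043.Z3
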