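import Vale.Agent.P043.Z3.Params
import Vale.Agent.P043.Z3.Clause
import Vale.Agent.P043.Z3.Window

/-! The finite system of equations. -/

namespace Vale.Agent.P043.Z3

/-- The values of a component. -/
abbrev VV (c : Comp) := ZMod (Pc c) × ZMod (Qc c)

/-- The value of a component. -/
noncomputable def valC (c : Comp) : GG →+ VV c where
  toFun g := ((g.1 c).1, (g.1 c).2.1)
  map_zero' := by simp
  map_add' g g' := by simp

/-- The label register of a component. -/
noncomputable def regC (c : Comp) : GG →+ ZMod (hc c ^ 2) where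
  toFun g := (g.1 c).2.2
  map_zero' := by simp
  map_add' g g' := by simp

/-- The shared register. -/
noncomputable def qreg : GG →+ ZMod 169 := AddMonoidHom.snd _ _

/-- The shared register read modulo thirteen. -/
noncomputable def qreg13 : GG →+ ZMod 13 :=
  ((ZMod.castHom (show 13 ∣ 169 by norm_num) (ZMod 13)).toAddMonoidHom).comp qreg

/-- A group element with given values and registers. -/
noncomputable def mkG (v : ∀ c, VV c) (z : ∀ c, ZMod (hc c ^ 2)) (w : ZMod 169) : GG :=
  (fun c => ((v c).1, (v c).2, z c), w)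

@[simp] theorem valC_mkG (v : ∀ c, VV c) (z : ∀ c, ZMod (hc c ^ 2)) (w : ZMod 169) (c : Comp) :
    valC c (mkG v z w) = v c := rfl

@[simp] theorem regC_mkG (v : ∀ c, VV c) (z : ∀ c, ZMod (hc c ^ 2)) (w : ZMod 169) (c : Comp) :
    regC c (mkG v z w) = z c := rfl

@[simp] theorem qreg_mkG (v : ∀ c, VV c) (z : ∀ c, ZMod (hc c ^ 2)) (w : ZMod 169) :
    qreg (mkG v z w) = w := rfl

theorem pr_apply (g : GG) (c : Comp) :
    pr g c = ZMod.castHom (dvd_pow_self (hc c) two_ne_zero) (ZMod (hc c)) (regC c g) := rfl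

theorem pr_surjective : Function.Surjective pr := by
  intro t
  refine ⟨mkG 0 (fun c => ((t c).val : ZMod (hc c ^ 2))) 0, ?_⟩
  funext c
  rw [pr_apply, regC_mkG, map_natCast, ZMod.natCast_zmod_val]

/-- The value of a component in a section. -/
noncomputable def X (c : Comp) (α : Pl → TT → GG) (n : Pl) (t : TT) : VV c := valC c (α n t)

/-- The periods of a function of the plane and the visible coordinates. -/
def periodsOf {S T : Type} [AddCommGroup S] [AddCommGroup T] {V : Type*} (f : S → T → V) :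
    AddSubgroup (S × T) where
  carrier := {p | ∀ n t, f (n + p.1) (t + p.2) = f n t}
  add_mem' {p p'} hp hp' n t := by
    rw [Prod.fst_add, Prod.snd_add, ← add_assoc, ← add_assoc, hp', hp]
  zero_mem' n t := by simp
  neg_mem' {p} hp n t := by
    have := hp (n + (-p).1) (t + (-p).2)
    simp only [Prod.fst_neg, Prod.snd_neg, neg_add_cancel_right] at this ⊢
    exact this.symm

theorem mem_periodsOf {S T : Type} [AddCommGroup S] [AddCommGroup T] {V : Type*} {f : S → T → V}
    {p : S × T} :
    p ∈ periodsOf f ↔ ∀ n t, f (n + p.1) (t + p.2) = f n t := Iff.rfl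

theorem exists_clause_lift {U : Type} [Fintype U] {cs : U → Comp} (hcs : Function.Injective cs)
    (v : ∀ u, VV (cs u)) (t : TT) : ∃ g, pr g = t ∧ ∀ u, valC (cs u) g = v u := by
  classical
  obtain ⟨g₀, hg₀⟩ := pr_surjective t
  refine ⟨mkG (∑ u, Pi.single (cs u) (v u)) (fun c => regC c g₀) 0, ?_, fun u => ?_⟩
  · funext c
    rw [pr_apply, regC_mkG, ← pr_apply, hg₀]
  · rw [valC_mkG, Finset.sum_apply, Finset.sum_eq_single u
      (fun u' _ hu' => Pi.single_eq_of_ne (fun h => hu' (hcs h).symm) _)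
      (fun h => absurd (Finset.mem_univ u) h), Pi.single_eq_same]

section Clauses

variable {U : Type} [Fintype U] [Nonempty U] {cs : U → Comp}

/-- An enumeration by a cyclic group. -/
noncomputable def cycEnum (U : Type) [Fintype U] [Nonempty U] : ZMod (Fintype.card U) ≃ U :=
  haveI : NeZero (Fintype.card U) := ⟨Fintype.card_ne_zero⟩
  Fintype.equivOfCardEq (ZMod.card _)

/-- The equation of a disjunction over distinct components. -/
noncomputable def cls (cs : U → Comp) (hcs : Function.Injective cs) (δ : U → Pl × TT) : Eqn pr :=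
  haveI : NeZero (Fintype.card U) := ⟨Fintype.card_ne_zero⟩
  clauseEqn (fun u => valC (cs (cycEnum U u))) (fun u => δ (cycEnum U u))
    (exists_clause_lift (cs := fun u => cs (cycEnum U u)) (hcs.comp (cycEnum U).injective))

theorem cls_sound {hcs : Function.Injective cs} {δ : U → Pl × TT} {α : Pl → TT → GG}
    (hinv : ∀ u w, u ≠ w → δ u ∈ periodsOf (X (cs w) α)) (H : (cls cs hcs δ).Holds α) :
    ∀ n t, ∃ u, X (cs u) α (n + (δ u).1) (t + (δ u).2) = X (cs u) α n t := by
  haveI : NeZero (Fintype.card U) := ⟨Fintype.card_ne_zero⟩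
  intro n t
  obtain ⟨u, hu⟩ := clause_sound
    (fun u w huw => hinv _ _ ((cycEnum U).injective.ne huw)) H n t
  exact ⟨cycEnum U u, hu⟩

theorem cls_exact {hcs : Function.Injective cs} {δ : U → Pl × TT} {α : Pl → TT → GG}
    (hinv : ∀ u w, u ≠ w → δ u ∈ periodsOf (X (cs w) α))
    (h : ∀ n t, ∃ u, X (cs u) α (n + (δ u).1) (t + (δ u).2) = X (cs u) α n t) :
    (cls cs hcs δ).Holds α := by
  haveI : NeZero (Fintype.card U) := ⟨Fintype.card_ne_zero⟩
  refine clause_exact (fun u w huw => hinv _ _ ((cycEnum U).injective.ne huw)) fun n t => ?_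
  obtain ⟨u, hu⟩ := h n t
  obtain ⟨u', rfl⟩ := (cycEnum U).surjective u
  exact ⟨u', hu⟩

theorem cls_offset {hcs : Function.Injective cs} {δ : Pl × TT} [Subsingleton U] :
    ∃ k, ((cls cs hcs (fun _ => δ)).fam k).1 = δ.1 := by
  haveI : NeZero (Fintype.card U) := ⟨Fintype.card_ne_zero⟩
  refine ⟨((fun _ => 0), 0), ?_⟩
  show (∑ u : ZMod (Fintype.card U), _) = δ.1
  have : Fintype.card U = 1 := Fintype.card_eq_one_iff.2
    ⟨Classical.arbitrary U, fun u => Subsingleton.elim _ _⟩
  simp [clauseBit, ZMod.card, this]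

end Clauses

/-- A symbol component. -/
abbrev Yc (b : Bool) (i : Idx) : Comp := .inl (b, i)

/-- An exceptional component. -/
abbrev Uc (j : Bool) : Comp := .inr j

/-- The direction of the lines of an index. -/
def dY (i : Idx) : Pl := if i.1 then (-(i.2 : ℤ), 1) else (1, -(i.2 : ℤ))

/-- A coordinate along the lines of an index. -/
def phiY (i : Idx) (n : Pl) : ℤ := if i.1 then n.2 else n.1

/-- A point on the line with coordinate `M`. -/
def linePt (i : Idx) (M : ℤ) : Pl := if i.1 then (M, 0) else (0, M)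

theorem phiY_add (i : Idx) (n : Pl) (m : ℤ) : phiY i (n + m • dY i) = phiY i n + m := by
  obtain ⟨b, w⟩ := i
  cases b <;> simp [phiY, dY]

theorem MM_add (i : Idx) (n : Pl) (m : ℤ) : MM i (n + m • dY i) = MM i n := by
  obtain ⟨b, w⟩ := i
  cases b <;> simp [MM, lin, uC, wC, dY] <;> ring

theorem MM_linePt (i : Idx) (M : ℤ) : MM i (linePt i M) = M := by
  obtain ⟨b, w⟩ := i
  cases b <;> simp [MM, lin, uC, wC, linePt]

theorem exists_linePt (i : Idx) (n : Pl) : ∃ m : ℤ, n = linePt i (MM i n) + m • dY i := by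
  obtain ⟨b, w⟩ := i
  obtain ⟨x, y⟩ := n
  cases b
  · exact ⟨x, by simp [MM, lin, uC, wC, linePt, dY]; ring⟩
  · exact ⟨y, by simp [MM, lin, uC, wC, linePt, dY]; ring⟩

theorem exists_residue {a b c : ℕ} (hab : Nat.Coprime a b) (hac : Nat.Coprime a c)
    (hbc : Nat.Coprime b c) (r s u : ℕ) :
    ∃ k : ℤ, (k : ZMod a) = (r : ZMod a) ∧ (k : ZMod b) = (s : ZMod b) ∧
      (k : ZMod c) = (u : ZMod c) := by
  obtain ⟨k₁, h₁, h₂⟩ := Nat.chineseRemainder hbc s u
  obtain ⟨k, h₃, h₄⟩ := Nat.chineseRemainder (Nat.Coprime.mul_right hab hac) r k₁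
  refine ⟨(k : ℤ), ?_, ?_, ?_⟩ <;> rw [Int.cast_natCast, ZMod.natCast_eq_natCast_iff]
  · exact h₃
  · exact (h₄.of_mul_right c).trans h₁
  · exact (h₄.of_mul_left b).trans h₂

theorem coprime_win (c : Comp) : Nat.Coprime (hc c) (Pc c) ∧ Nat.Coprime (hc c) (Qc c) ∧
    Nat.Coprime (13 * hc c) (Pc c) ∧ Nat.Coprime (13 * hc c) (Qc c) :=
  ⟨(coprime_hc c (.inl c)).symm, (coprime_hc c (.inr c)).symm,
    Nat.Coprime.mul_left (usedPrime_coprime_thirteen (.inl (.inl c))).symm
      (coprime_hc c (.inl c)).symm,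
    Nat.Coprime.mul_left (usedPrime_coprime_thirteen (.inl (.inr c))).symm
      (coprime_hc c (.inr c)).symm⟩

/-- The residue basis of a window of length `H`. -/
theorem exists_basis (H : ℕ) (c : Comp) (hP : Nat.Coprime H (Pc c)) (hQ : Nat.Coprime H (Qc c)) :
    ∃ abc : ℤ × ℤ × ℤ,
      ((abc.1 : ZMod H) = 1 ∧ (abc.1 : ZMod (Pc c)) = 0 ∧ (abc.1 : ZMod (Qc c)) = 0) ∧
      ((abc.2.1 : ZMod H) = 0 ∧ (abc.2.1 : ZMod (Pc c)) = 1 ∧ (abc.2.1 : ZMod (Qc c)) = 0) ∧
      ((abc.2.2 : ZMod H) = 0 ∧ (abc.2.2 : ZMod (Pc c)) = 0 ∧ (abc.2.2 : ZMod (Qc c)) = 1) := by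
  obtain ⟨a, ha⟩ := exists_residue hP hQ (coprime_PQ c) 1 0 0
  obtain ⟨b, hb⟩ := exists_residue hP hQ (coprime_PQ c) 0 1 0
  obtain ⟨d, hd⟩ := exists_residue hP hQ (coprime_PQ c) 0 0 1
  exact ⟨(a, b, d), by simpa using ha, by simpa using hb, by simpa using hd⟩

/-- The unit move of a coordinate. -/
noncomputable def stepT (c : Comp) : TT := Pi.single c 1

theorem pr_lift (c : Comp) (m : ℤ) (v : ∀ c, VV c) (w : ZMod 169) :
    pr (mkG v (Pi.single c (m : ZMod (hc c ^ 2))) w) = m • stepT c := by
  funext c'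
  rw [pr_apply, regC_mkG, Pi.smul_apply, stepT]
  rcases eq_or_ne c' c with rfl | h
  · simp
  · simp [Pi.single_eq_of_ne h]

/-- The window of a symbol component. -/
noncomputable def winY (x : Bool × Idx) :
    WinData pr (ZMod (hc (.inl x) ^ 2)) Unit (hc (.inl x)) (Pc (.inl x)) (Qc (.inl x)) :=
  let e := exists_basis (hc (.inl x)) (.inl x) (coprime_win _).1 (coprime_win _).2.1
  { val := valC (.inl x)
    reg := regC (.inl x)
    d := dY x.2
    st := stepT (.inl x)
    r1 := 1
    dv := fun _ => 0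
    a := e.choose.1
    b := e.choose.2.1
    c := e.choose.2.2
    ha := e.choose_spec.1
    hb := e.choose_spec.2.1
    hc := e.choose_spec.2.2
    lift := fun m v => ⟨mkG (Pi.single _ v) (Pi.single _ (m : ZMod (hc (.inl x) ^ 2))) 0,
      pr_lift _ _ _ _, by simp, by simp⟩ }

/-- The first exceptional window. -/
noncomputable def winU0 : WinData pr (ZMod (hc (Uc false) ^ 2) × ZMod 13) Unit
    (13 * hc (Uc false)) (Pc (Uc false)) (Qc (Uc false)) :=
  let e := exists_basis (13 * hc (Uc false)) (Uc false) (coprime_win _).2.2.1 (coprime_win _).2.2.2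
  { val := valC (Uc false)
    reg := (regC (Uc false)).prod qreg13
    d := (0, 1)
    st := stepT (Uc false)
    r1 := (1, 0)
    dv := fun _ => 0
    a := e.choose.1
    b := e.choose.2.1
    c := e.choose.2.2
    ha := e.choose_spec.1
    hb := e.choose_spec.2.1
    hc := e.choose_spec.2.2
    lift := fun m v => ⟨mkG (Pi.single _ v) (Pi.single _ (m : ZMod (hc (Uc false) ^ 2))) 0,
      pr_lift _ _ _ _, by simp, by simp [qreg13]⟩ }

/-- The second exceptional window, with thirteen dummy offsets. -/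
noncomputable def winU1 : WinData pr (ZMod (hc (Uc true) ^ 2) × ZMod 169) (ZMod 13)
    (13 * hc (Uc true)) (Pc (Uc true)) (Qc (Uc true)) :=
  let e := exists_basis (13 * hc (Uc true)) (Uc true) (coprime_win _).2.2.1 (coprime_win _).2.2.2
  { val := valC (Uc true)
    reg := (regC (Uc true)).prod qreg
    d := (0, 1)
    st := stepT (Uc true)
    r1 := (1, 0)
    dv := fun k => ((k.val : ℤ), 0)
    a := e.choose.1
    b := e.choose.2.1
    c := e.choose.2.2
    ha := e.choose_spec.1
    hb := e.choose_spec.2.1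
    hc := e.choose_spec.2.2
    lift := fun m v => ⟨mkG (Pi.single _ v) (Pi.single _ (m : ZMod (hc (Uc true) ^ 2))) 0,
      pr_lift _ _ _ _, by simp, by simp⟩ }

/-- The move of the symbol `g` in a component. -/
noncomputable def symMove (c : Comp) (g : Sym) : Pl × TT := (0, Pi.single c (unitSym c g))

/-- The move of the whole coordinate of a component. -/
noncomputable def unitMove (c : Comp) : Pl × TT := (0, stepT c)

/-- The residue marked by an exceptional component. -/
def mark (j : Bool) : ZMod 13 := if j then 1 else 0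

/-- Pairs of different components. -/
abbrev Foreign := {p : Comp × Comp // p.1 ≠ p.2}

/-- Two different symbols at one index. -/
abbrev ExPair := {p : Idx × Sym × Sym // p.2.1 ≠ p.2.2}

/-- Forbidden columns. -/
abbrev BadCol := {g : Idx → Sym // ¬ Allowed g}

/-- Symbols that exclude a move of an exceptional component. -/
abbrev BadLink := {p : Bool × Sym // p.2.1 ≠ mark p.1}

/-- The names of the equations. -/
abbrev EqIdx := Foreign ⊕ (Bool × Idx) ⊕ (Bool × Bool) ⊕ ((Bool × Idx) ⊕ Bool) ⊕ ExPair ⊕ BadCol ⊕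
  BadLink

theorem pair_injective {i : Idx} : Function.Injective fun b : Bool => Yc b i := fun b b' h => by
  simpa using h

theorem col_injective : Function.Injective fun i : Idx => Yc false i := fun i i' h => by
  simpa using h

/-- The components of a link. -/
def linkComp (j : Bool) (b : Bool) : Comp := if b then Yc false i10 else Uc j

theorem linkComp_injective (j : Bool) : Function.Injective (linkComp j) := fun b b' h => by
  cases b <;> cases b' <;> simp [linkComp] at h ⊢

/-- The moves of a link. -/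
noncomputable def linkMove (j : Bool) (g : Sym) (b : Bool) : Pl × TT :=
  if b then symMove (Yc false i10) g else unitMove (Uc j)

/-- The system. -/
noncomputable def eqs : EqIdx → Eqn pr
  | .inl p => cls (fun _ : Unit => p.1.1) (fun _ _ _ => rfl) fun _ => unitMove p.1.2
  | .inr (.inl x) => cls (fun _ : Unit => (.inl x : Comp)) (fun _ _ _ => rfl) fun _ => (dY x.2, 0)
  | .inr (.inr (.inl x)) => cls (fun _ : Unit => Uc x.1) (fun _ _ _ => rfl)
      fun _ => ((if x.2 then (1, 0) else (0, 13)), 0)
  | .inr (.inr (.inr (.inl (.inl x)))) => (winY x).eqn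
  | .inr (.inr (.inr (.inl (.inr false)))) => winU0.eqn
  | .inr (.inr (.inr (.inl (.inr true)))) => winU1.eqn
  | .inr (.inr (.inr (.inr (.inl p)))) => cls (fun b => Yc b p.1.1) pair_injective
      fun b => symMove (Yc b p.1.1) (if b then p.1.2.2 else p.1.2.1)
  | .inr (.inr (.inr (.inr (.inr (.inl g))))) => cls (fun i => Yc false i) col_injective
      fun i => symMove (Yc false i) (g.1 i)
  | .inr (.inr (.inr (.inr (.inr (.inr p))))) => cls (linkComp p.1.1) (linkComp_injective _)
      (linkMove p.1.1 p.1.2)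

end Vale.Agent.P043.Z3
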